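import Mathlib

/-!
# The inverses of `(σ + b)^2 - d` span `L = k(σ)`
-/

namespace Vale.Agent.P011.H152

open Polynomial

variable {k L : Type*} [Field k] [CharZero k] [Field L] [Algebra k L] [FiniteDimensional k L]

omit [CharZero k] in
/-- A linear form vanishing on many powers of a generator vanishes. -/
theorem exists_pow_bound (σ : L) (hgen : Algebra.adjoin k {σ} = ⊤) :
    ∃ J : ℕ, ∀ f : L →ₗ[k] k, (∀ j < J, f (σ ^ j) = 0) → f = 0 := by
  classical
  let b := Module.finBasis k L
  have h1 : ∀ i, ∃ p : k[X], aeval σ p = b i := by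
    intro i
    have h2 : b i ∈ Algebra.adjoin k {σ} := by rw [hgen]; exact Algebra.mem_top
    rw [Algebra.adjoin_singleton_eq_range_aeval] at h2
    exact h2
  choose p hp using h1
  refine ⟨(Finset.univ.sup fun i => (p i).natDegree) + 1, fun f hf => ?_⟩
  refine b.ext (fun i => ?_)
  rw [LinearMap.zero_apply, ← hp i, aeval_eq_sum_range, map_sum]
  refine Finset.sum_eq_zero (fun j hj => ?_)
  rw [map_smul, hf j, smul_zero]
  have h3 : (p i).natDegree ≤ Finset.univ.sup fun i => (p i).natDegree :=
    Finset.le_sup (f := fun i => (p i).natDegree) (Finset.mem_univ i)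
  have := Finset.mem_range.1 hj
  omega

/-- The quadratic polynomial `(X + σ)^2 - d`. -/
noncomputable def quad (σ : L) (d : k) : L[X] := (X + C σ) ^ 2 - C (algebraMap k L d)

omit [CharZero k] [FiniteDimensional k L] in
theorem quad_eq (σ : L) (d : k) :
    quad σ d = X ^ 2 + C (2 * σ) * X + C (σ ^ 2 - algebraMap k L d) := by
  rw [quad, C_sub, C_mul, C_pow]
  have : (C (2 : L) : L[X]) = 2 := map_ofNat C 2
  rw [this]
  ring

omit [CharZero k] [FiniteDimensional k L] in
theorem quad_monic (σ : L) (d : k) : (quad σ d).Monic := by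
  rw [quad_eq]
  monicity!

omit [CharZero k] [FiniteDimensional k L] in
theorem quad_eval (σ : L) (d b : k) :
    (quad σ d).eval (algebraMap k L b) = (σ + algebraMap k L b) ^ 2 - algebraMap k L d := by
  rw [quad]
  simp
  ring

omit [CharZero k] in
/-- `quad` divides a monic polynomial over `k`. -/
theorem exists_dvd (σ : L) (d : k) :
    ∃ N : k[X], N.Monic ∧ quad σ d ∣ N.map (algebraMap k L) := by
  have hm := quad_monic σ d
  have : Module.Finite L (AdjoinRoot (quad σ d)) := (AdjoinRoot.powerBasis' hm).finite
  have : Module.Finite k (AdjoinRoot (quad σ d)) := Module.Finite.trans L _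
  have hint : IsIntegral k (AdjoinRoot.root (quad σ d)) := IsIntegral.of_finite k _
  refine ⟨minpoly k (AdjoinRoot.root (quad σ d)), minpoly.monic hint, ?_⟩
  rw [← AdjoinRoot.mk_eq_zero, ← AdjoinRoot.aeval_eq, aeval_map_algebraMap]
  exact minpoly.aeval k _

/-- **The inverses of `(σ + b)^2 - d`, `b` in a large finite set, span `L` over `k`.** -/
theorem span_inv (σ : L) (d : k) (hgen : Algebra.adjoin k {σ} = ⊤)
    (hx : ∀ b : k, (σ + algebraMap k L b) ^ 2 - algebraMap k L d ≠ 0) :
    ∃ N0 : ℕ, ∀ B : Finset k, N0 ≤ B.card →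
      Submodule.span k ((fun b : k => ((σ + algebraMap k L b) ^ 2 - algebraMap k L d)⁻¹) ''
        (B : Set k)) = ⊤ := by
  classical
  obtain ⟨J, hJ⟩ := exists_pow_bound σ hgen
  obtain ⟨N, hNm, hNd⟩ := exists_dvd σ d
  -- the multiple of high degree
  set M : k[X] := N * X ^ (J + 2) with hM
  have hMm : M.Monic := hNm.mul (monic_X_pow _)
  obtain ⟨Q, hQ⟩ : quad σ d ∣ M.map (algebraMap k L) := by
    rw [hM, Polynomial.map_mul]
    exact hNd.mul_right _
  set m := M.natDegree with hm
  have hmJ : J + 2 ≤ m := by
    rw [hm, hM, hNm.natDegree_mul (monic_X_pow _), natDegree_X_pow]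
    omega
  have hqm := quad_monic σ d
  have hq2 : (quad σ d).natDegree = 2 := by
    rw [quad_eq]
    compute_degree!
  have hMap : (M.map (algebraMap k L)).Monic := hMm.map _
  have hQm : Q.Monic := by
    rw [hQ] at hMap
    exact hqm.of_mul_monic_left hMap
  have hQdeg : Q.natDegree = m - 2 := by
    have h1 : (M.map (algebraMap k L)).natDegree = m := hMm.natDegree_map _
    rw [hQ, hqm.natDegree_mul hQm, hq2] at h1
    omega
  -- coefficient relation
  have hrel : ∀ i, algebraMap k L (M.coeff (i + 2)) =
      Q.coeff i + 2 * σ * Q.coeff (i + 1) + (σ ^ 2 - algebraMap k L d) * Q.coeff (i + 2) := by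
    intro i
    rw [← coeff_map, hQ, quad_eq, add_mul, add_mul, coeff_add, coeff_add, mul_assoc, coeff_C_mul,
      coeff_C_mul, coeff_X_mul]
    congr 2
    rw [mul_comm, coeff_mul_X_pow]
  have hQ1 : ∀ i, m - 2 < i → Q.coeff i = 0 := fun i hi =>
    coeff_eq_zero_of_natDegree_lt (by rw [hQdeg]; exact hi)
  -- leading terms
  have hlead : ∀ j, j ≤ m - 2 → Q.coeff (m - 2 - j) - ((-1) ^ j * (j + 1 : ℕ)) * σ ^ j ∈
      Submodule.span k ((fun i : ℕ => σ ^ i) '' {i | i < j}) := by
    intro j
    induction j using Nat.strong_induction_on with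
    | _ j ih =>
      intro hj
      rcases j with _ | _ | j
      · have h1 : Q.coeff (m - 2) = 1 := by rw [← hQdeg]; exact hQm
        rw [Nat.sub_zero, h1]
        simp
      · -- j = 1
        have h1 : Q.coeff (m - 2) = 1 := by rw [← hQdeg]; exact hQm
        have h2 := hrel (m - 2 - 1)
        have e1 : m - 2 - 1 + 1 = m - 2 := by omega
        have e2 : m - 2 - 1 + 2 = m - 1 := by omega
        rw [e1, e2, h1, hQ1 (m - 1) (by omega)] at h2
        have h3 : Q.coeff (m - 2 - (0 + 1)) - ((-1) ^ (0 + 1) * ((0 + 1 + 1 : ℕ) : L)) *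
            σ ^ (0 + 1) = algebraMap k L (M.coeff (m - 1)) := by
          rw [h2]
          push_cast
          ring_nf
        rw [h3, Algebra.algebraMap_eq_smul_one]
        refine Submodule.smul_mem _ _ (Submodule.subset_span ⟨0, ?_, pow_zero σ⟩)
        exact Nat.zero_lt_one
      · -- j + 2
        have ha := ih (j + 1) (by omega) (by omega)
        have hb := ih j (by omega) (by omega)
        have h2 := hrel (m - 2 - (j + 2))
        have e1 : m - 2 - (j + 2) + 1 = m - 2 - (j + 1) := by omega
        have e2 : m - 2 - (j + 2) + 2 = m - 2 - j := by omega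
        rw [e1, e2] at h2
        set S : ℕ → Submodule k L := fun j =>
          Submodule.span k ((fun i : ℕ => σ ^ i) '' {i | i < j}) with hS
        have hmono : ∀ a b, a ≤ b → S a ≤ S b := fun a b hab =>
          Submodule.span_mono (Set.image_mono fun i hi => lt_of_lt_of_le hi hab)
        have hmul : ∀ a, ∀ y ∈ S a, σ * y ∈ S (a + 1) := by
          intro a y hy
          induction hy using Submodule.span_induction with
          | mem y hy =>
            obtain ⟨i, hi, rfl⟩ := hy
            refine Submodule.subset_span ⟨i + 1, Nat.succ_lt_succ hi, ?_⟩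
            show σ ^ (i + 1) = σ * σ ^ i
            ring
          | zero => rw [mul_zero]; exact Submodule.zero_mem _
          | add x y _ _ hx hy => rw [mul_add]; exact Submodule.add_mem _ hx hy
          | smul c y _ hy =>
            rw [mul_smul_comm]
            exact Submodule.smul_mem _ _ hy
        have hpow : ∀ a b, a < b → σ ^ a ∈ S b := fun a b hab =>
          Submodule.subset_span ⟨a, hab, rfl⟩
        have hnat : ∀ (c : ℕ) (a : ℕ) (y : L), y ∈ S a → (c : L) * y ∈ S a := by
          intro c a y hy
          have : (c : L) * y = (c : k) • y := by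
            rw [Algebra.smul_def]; simp
          rw [this]
          exact Submodule.smul_mem _ _ hy
        have hneg : ∀ (c : ℕ) (a : ℕ) (y : L), y ∈ S a → (-1) ^ c * y ∈ S a := by
          intro c a y hy
          rcases Nat.even_or_odd c with hc | hc
          · rw [hc.neg_one_pow, one_mul]; exact hy
          · rw [hc.neg_one_pow, neg_one_mul]; exact Submodule.neg_mem _ hy
        have hcast : ∀ (c : k) (a : ℕ) (y : L), y ∈ S a → algebraMap k L c * y ∈ S a := by
          intro c a y hy
          rw [← Algebra.smul_def]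
          exact Submodule.smul_mem _ _ hy
        set qa := Q.coeff (m - 2 - (j + 1)) with hqa
        set qb := Q.coeff (m - 2 - j) with hqb
        have h3 : Q.coeff (m - 2 - (j + 2)) - ((-1) ^ (j + 2) * ((j + 2 + 1 : ℕ) : L)) *
            σ ^ (j + 2) = algebraMap k L (M.coeff (m - 2 - j))
            - (2 : ℕ) * (σ * (qa - ((-1) ^ (j + 1) * ((j + 1 + 1 : ℕ) : L)) * σ ^ (j + 1)))
            - (σ * (σ * (qb - ((-1) ^ j * ((j + 1 : ℕ) : L)) * σ ^ j)))
            + algebraMap k L d * (qb - ((-1) ^ j * ((j + 1 : ℕ) : L)) * σ ^ j)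
            + algebraMap k L d * ((-1) ^ j * (((j + 1 : ℕ) : L) * σ ^ j)) := by
          rw [h2]
          push_cast
          ring
        have e3 : m - 2 - (j + 2) = m - 2 - (j + 1 + 1) := rfl
        show Q.coeff (m - 2 - (j + 2)) - ((-1) ^ (j + 2) * ((j + 2 + 1 : ℕ) : L)) *
          σ ^ (j + 2) ∈ S (j + 2)
        rw [h3]
        refine Submodule.add_mem _ (Submodule.add_mem _ (Submodule.sub_mem _
          (Submodule.sub_mem _ ?_ ?_) ?_) ?_) ?_
        · rw [Algebra.algebraMap_eq_smul_one]
          refine Submodule.smul_mem _ _ ?_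
          rw [← pow_zero σ]
          exact hpow 0 _ (by omega)
        · exact hnat 2 _ _ (hmul (j + 1) _ ha)
        · exact hmul (j + 1) _ (hmul j _ hb)
        · exact hcast d _ _ (hmono j (j + 2) (by omega) hb)
        · exact hcast d _ _ (hneg j _ _ (hnat (j + 1) _ _ (hpow j _ (by omega))))
  refine ⟨m - 1, fun B hB => ?_⟩
  by_contra hne
  obtain ⟨f, hf0, hf⟩ := Submodule.exists_le_ker_of_lt_top _ (lt_top_iff_ne_top.2 hne)
  apply hf0
  apply hJ
  -- the polynomial `p(t) = f (Q(t))`
  set p : k[X] := ∑ i ∈ Finset.range (m - 1), monomial i (f (Q.coeff i)) with hp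
  have hpc : ∀ i, i < m - 1 → p.coeff i = f (Q.coeff i) := by
    intro i hi
    rw [hp, finsetSum_coeff]
    rw [Finset.sum_eq_single i]
    · rw [coeff_monomial, if_pos rfl]
    · intro b _ hb
      rw [coeff_monomial, if_neg hb]
    · intro h
      exact absurd (Finset.mem_range.2 hi) h
  have hpd : p.natDegree ≤ m - 2 := by
    rw [hp]
    refine natDegree_sum_le_of_forall_le _ _ (fun i hi => ?_)
    refine (natDegree_monomial_le _).trans ?_
    have := Finset.mem_range.1 hi
    omega
  have hroot : ∀ b ∈ B, p.eval b = 0 := by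
    intro b hb
    have h1 : p.eval b = f (Q.eval (algebraMap k L b)) := by
      rw [eval_eq_sum_range' (n := m - 1) (by omega : Q.natDegree < m - 1), map_sum, hp,
        eval_finsetSum]
      refine Finset.sum_congr rfl (fun i _ => ?_)
      rw [eval_monomial, ← map_pow, mul_comm (Q.coeff i), ← Algebra.smul_def, map_smul,
        smul_eq_mul, mul_comm]
    have h2 : Q.eval (algebraMap k L b) =
        (M.eval b) • ((σ + algebraMap k L b) ^ 2 - algebraMap k L d)⁻¹ := by
      have h3 : (M.map (algebraMap k L)).eval (algebraMap k L b) =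
          algebraMap k L (M.eval b) := by
        rw [eval_map, eval₂_at_apply]
      rw [hQ, eval_mul, quad_eval] at h3
      rw [Algebra.smul_def, ← h3]
      field_simp [hx b]
    rw [h1, h2, map_smul]
    have h4 : f (((σ + algebraMap k L b) ^ 2 - algebraMap k L d)⁻¹) = 0 := by
      apply hf
      exact Submodule.subset_span ⟨b, hb, rfl⟩
    rw [h4, smul_zero]
  have hp0 : p = 0 := by
    by_contra hp0
    have h1 : B.card ≤ p.natDegree := by
      refine le_trans ?_ (card_roots' p)
      have h2 : B ≤ p.roots.toFinset := by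
        intro b hb
        rw [Multiset.mem_toFinset, mem_roots hp0]
        exact hroot b hb
      exact (Finset.card_le_card h2).trans (Multiset.toFinset_card_le _)
    omega
  have hfQ : ∀ i, i < m - 1 → f (Q.coeff i) = 0 := by
    intro i hi
    rw [← hpc i hi, hp0, coeff_zero]
  -- descend to powers of `σ`
  have hpw : ∀ j, j ≤ m - 2 → f (σ ^ j) = 0 := by
    intro j
    induction j using Nat.strong_induction_on with
    | _ j ih =>
      intro hj
      have h1 := hlead j hj
      have h2 : ∀ y ∈ Submodule.span k ((fun i : ℕ => σ ^ i) '' {i | i < j}), f y = 0 := by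
        intro y hy
        induction hy using Submodule.span_induction with
        | mem y hy =>
          obtain ⟨i, hi, rfl⟩ := hy
          exact ih i hi (le_trans (le_of_lt hi) hj)
        | zero => exact map_zero f
        | add x y _ _ hx hy => rw [map_add, hx, hy, add_zero]
        | smul c y _ hy => rw [map_smul, hy, smul_zero]
      have h3 := h2 _ h1
      rw [map_sub, hfQ _ (by omega), zero_sub, neg_eq_zero] at h3
      have h4 : ((-1 : L) ^ j * ((j + 1 : ℕ) : L)) * σ ^ j =
          ((-1 : k) ^ j * ((j + 1 : ℕ) : k)) • σ ^ j := by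
        rw [Algebra.smul_def, map_mul, map_pow, map_neg, map_one, map_natCast]
      rw [h4, map_smul, smul_eq_mul] at h3
      rcases mul_eq_zero.1 h3 with h5 | h5
      · exfalso
        rcases mul_eq_zero.1 h5 with h6 | h6
        · exact pow_ne_zero j (by norm_num : (-1 : k) ≠ 0) h6
        · exact Nat.cast_ne_zero.2 (Nat.succ_ne_zero j) h6
      · exact h5
  intro j hj
  exact hpw j (by omega)

end Vale.Agent.P011.H152
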