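import Vale.Agent.P011.H74.BCR
import Vale.Agent.P011.H380.Model
import Vale.Agent.P011.H83.Contr

/-!
# Counting in boxes

Points of `k^m` which are separated, modulo a lattice, with respect to the modulus of an algebra
`E` are few (piece P1 of the upper bound for `M_2(D)`).
-/

set_option linter.unusedSectionVars false

open MeasureTheory Filter Topology Set Module
open scoped ENNReal NNReal Pointwise

namespace Vale.Agent.P011.H152.CountM2

open Vale.Agent.P011.H74 Vale.Agent.P011.H380.UpBC Vale.Agent.P011.H83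

section pi

variable {R κ : Type*} [Fintype κ] [CommRing R] [TopologicalSpace R] [IsTopologicalRing R]
  [LocallyCompactSpace R] [T2Space R] [SecondCountableTopology R] [MeasurableSpace R]
  [BorelSpace R]

/-- A diagonal unit scales the product measure. -/
theorem pi_scale (μ : Measure R) [SigmaFinite μ] (T : κ → Rˣ) (t : κ → ℝ) (ht : ∀ i, 0 < t i)
    (h : ∀ i, Scales μ (T i) (ENNReal.ofReal (t i))) (s : Set (κ → R)) (hs : MeasurableSet s) :
    Measure.pi (fun _ : κ => μ) ((fun x i => ((T i)⁻¹ : Rˣ) * x i) ⁻¹' s) =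
      ENNReal.ofReal (∏ i, t i) * Measure.pi (fun _ : κ => μ) s := by
  set f : (κ → R) → (κ → R) := fun x i => ((T i)⁻¹ : Rˣ) * x i with hf
  have hfm : Measurable f := by
    have : Continuous f := by
      rw [hf]; fun_prop
    exact this.measurable
  have hpos : 0 < ∏ i, t i := Finset.prod_pos fun i _ => ht i
  set c := ENNReal.ofReal (∏ i, t i) with hc
  have hc0 : c ≠ 0 := by rw [hc]; simpa using hpos
  have hct : c ≠ ∞ := ENNReal.ofReal_ne_top
  have key : Measure.pi (fun _ : κ => μ) = c⁻¹ • (Measure.pi (fun _ : κ => μ)).map f := by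
    refine Measure.pi_eq fun s hs => ?_
    rw [Measure.smul_apply, Measure.map_apply hfm (MeasurableSet.univ_pi hs)]
    have h1 : f ⁻¹' (univ.pi s) = univ.pi fun i => ((T i : R) • s i) := by
      ext x
      rw [mem_preimage, Set.mem_univ_pi, Set.mem_univ_pi]
      refine forall_congr' fun i => ?_
      rw [smul_eq_preimage, mem_preimage, smul_eq_mul]
    rw [h1, Measure.pi_pi]
    have h2 : ∀ i, μ ((T i : R) • s i) = ENNReal.ofReal (t i) * μ (s i) := fun i => h i _ (hs i)
    rw [Finset.prod_congr rfl fun i _ => h2 i, Finset.prod_mul_distrib,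
      ← ENNReal.ofReal_prod_of_nonneg fun i _ => (ht i).le, smul_eq_mul, ← mul_assoc,
      ENNReal.inv_mul_cancel hc0 hct, one_mul]
  have h3 : (Measure.pi (fun _ : κ => μ)).map f s = c * Measure.pi (fun _ : κ => μ) s := by
    conv_rhs => rw [key]
    rw [Measure.smul_apply, smul_eq_mul, ← mul_assoc, ENNReal.mul_inv_cancel hc0 hct, one_mul]
  rw [← h3, Measure.map_apply hfm hs]

end pi

section bound

variable {E : Type*} [Ring E] [TopologicalSpace E] [IsTopologicalRing E] [LocallyCompactSpace E]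

/-- The modulus is bounded on compact sets. -/
theorem exists_bound {K : Set E} (hK : IsCompact K) :
    ∃ C : ℝ, 1 ≤ C ∧ ∀ d : Eˣ, (d : E) ∈ K → (distribHaarChar E d : ℝ) ≤ C := by
  borelize E
  obtain ⟨X, hX, hXn⟩ := exists_compact_mem_nhds (0 : E)
  set μ : Measure E := Measure.addHaar with hμ
  have h1 : μ X ≠ 0 := (Measure.measure_pos_of_mem_nhds μ hXn).ne'
  have h2 : μ X ≠ ∞ := hX.measure_lt_top.ne
  have h3 : μ (K * X) ≠ ∞ := (hK.mul hX).measure_lt_top.ne
  refine ⟨max 1 ((μ (K * X)).toReal / (μ X).toReal), le_max_left _ _, fun d hd => ?_⟩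
  refine le_trans ?_ (le_max_right _ _)
  have h4 : (distribHaarChar E d : ℝ≥0∞) * μ X ≤ μ (K * X) := by
    rw [distribHaarChar_mul]
    refine measure_mono ?_
    rintro _ ⟨x, hx, rfl⟩
    exact ⟨d, hd, x, hx, rfl⟩
  rw [le_div_iff₀ (ENNReal.toReal_pos h1 h2)]
  have h5 := ENNReal.toReal_mono h3 h4
  rwa [ENNReal.toReal_mul, ENNReal.coe_toReal] at h5

end bound

section adapt

variable {k R A E ι : Type*} [Field k] [CommRing R] [TopologicalSpace R] [IsTopologicalRing R]
  [Algebra k R] [Ring A] [StarRing A] [Algebra k A] [Ring E] [StarRing E] [TopologicalSpace E]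
  [IsTopologicalRing E] [Algebra R E] [Fintype ι] [DecidableEq ι] (B : BCR k R A E ι)

/-- Coordinates with respect to another basis. -/
theorem exists_coord {κ : Type*} [Fintype κ] [DecidableEq κ] (a' : Basis κ k A) :
    ∃ ψ : E ≃L[R] (κ → R), ∀ x i, ψ (B.j x) i = algebraMap k R (a'.repr x i) := by
  set P : Matrix ι κ R := (B.a.toMatrix a').map (algebraMap k R) with hP
  set P' : Matrix κ ι R := (a'.toMatrix B.a).map (algebraMap k R) with hP'
  have h1 : P * P' = 1 := by
    rw [hP, hP', ← Matrix.map_mul, Basis.toMatrix_mul_toMatrix_flip, Matrix.map_one] <;> simp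
  have h2 : P' * P = 1 := by
    rw [hP, hP', ← Matrix.map_mul, Basis.toMatrix_mul_toMatrix_flip, Matrix.map_one] <;> simp
  let e0 : (ι → R) ≃ₗ[R] (κ → R) := Matrix.toLin'OfInv h1 h2
  have he0 : ∀ v, e0 v = P'.mulVec v := fun v => rfl
  let e1 : (ι → R) ≃L[R] (κ → R) :=
    { e0 with
      continuous_toFun := LinearMap.continuous_on_pi (e0 : (ι → R) →ₗ[R] (κ → R))
      continuous_invFun := LinearMap.continuous_on_pi (e0.symm : (κ → R) →ₗ[R] (ι → R)) }
  refine ⟨B.φ.trans e1, fun x i => ?_⟩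
  have h3 : (B.φ.trans e1) (B.j x) = P'.mulVec (B.φ (B.j x)) := rfl
  rw [h3]
  have h4 : B.φ (B.j x) = fun i => algebraMap k R (B.a.repr x i) := funext fun i => B.φ_eq x i
  have h5 : (a'.toMatrix B.a).mulVec (B.a.repr x) i = a'.repr x i := by
    rw [Basis.toMatrix_mulVec_repr]
  rw [h4, ← h5]
  simp only [Matrix.mulVec, dotProduct, hP', Matrix.map_apply, map_sum, map_mul]

/-- A linear map which is diagonal in coordinates. -/
theorem exists_adapt {g : A} (hg : g * g = g) {M : ℕ}
    (hM : finrank k (LinearMap.range (LinearMap.mulLeft k g)) = M) :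
    ∃ (M' : ℕ) (ψ : E ≃L[R] (Fin M ⊕ Fin M' → R)), ∀ (r : R) (y : E) (i : Fin M ⊕ Fin M'),
      ψ ((r • B.j g + B.j (1 - g)) * y) i = (Sum.elim (fun _ => r) (fun _ => 1) i : R) * ψ y i := by
  classical
  have hfin : Module.Finite k A := Module.Finite.of_basis B.a
  set p : A →ₗ[k] A := LinearMap.mulLeft k g with hp
  have hpp : p ∘ₗ p = p := by
    ext x
    simp only [LinearMap.comp_apply, hp, LinearMap.mulLeft_apply]
    rw [← mul_assoc, hg]
  have hc : IsCompl (LinearMap.range p) (LinearMap.ker p) := by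
    refine LinearMap.IsIdempotentElem.isCompl ?_
    exact hpp
  let b1 : Basis (Fin M) k (LinearMap.range p) := Module.finBasisOfFinrankEq k _ hM
  let b2 : Basis (Fin (finrank k (LinearMap.ker p))) k (LinearMap.ker p) :=
    Module.finBasisOfFinrankEq k _ rfl
  let a' : Basis (Fin M ⊕ Fin (finrank k (LinearMap.ker p))) k A :=
    (b1.prod b2).map (Submodule.prodEquivOfIsCompl _ _ hc)
  have hl : ∀ i, g * a' (Sum.inl i) = a' (Sum.inl i) := by
    intro i
    have h1 : a' (Sum.inl i) = (b1 i : A) := by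
      simp [a']
    rw [h1]
    obtain ⟨y, hy⟩ := (b1 i).2
    rw [← hy, hp, LinearMap.mulLeft_apply, ← mul_assoc, hg]
  have hr : ∀ i, g * a' (Sum.inr i) = 0 := by
    intro i
    have h1 : a' (Sum.inr i) = (b2 i : A) := by
      simp [a']
    rw [h1]
    exact (b2 i).2
  obtain ⟨ψ, hψ⟩ := exists_coord B a'
  refine ⟨_, ψ, ?_⟩
  intro r
  -- both sides are linear in `y`
  let bE : Basis (Fin M ⊕ Fin (finrank k (LinearMap.ker p))) R E := Basis.ofEquivFun ψ.toLinearEquiv
  have hbE : ∀ l, bE l = B.j (a' l) := by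
    intro l
    apply ψ.injective
    have h1 : ψ (bE l) = Pi.single l 1 := by
      have h2 : bE l = ψ.symm (Pi.single l 1) := by
        have h3 : (⇑bE : _ → E) = fun l => ψ.symm (Pi.single l 1) :=
          Basis.coe_ofEquivFun ψ.toLinearEquiv
        rw [h3]
      rw [h2, ContinuousLinearEquiv.apply_symm_apply]
    rw [h1]
    funext i
    rw [hψ, Basis.repr_self, Finsupp.single_apply, Pi.single_apply]
    by_cases h : l = i
    · subst h; simp
    · rw [if_neg h, if_neg (fun h' => h h'.symm), map_zero]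
  intro y i
  let f1 : E →ₗ[R] R := (LinearMap.proj i).comp
    ((ψ : E →ₗ[R] (Fin M ⊕ Fin (finrank k (LinearMap.ker p)) → R)).comp
      (LinearMap.mulLeft R (r • B.j g + B.j (1 - g))))
  let f2 : E →ₗ[R] R := (Sum.elim (fun _ => r) (fun _ => 1) i : R) •
    ((LinearMap.proj i).comp (ψ : E →ₗ[R] (Fin M ⊕ Fin (finrank k (LinearMap.ker p)) → R)))
  have hf : f1 = f2 := by
    refine bE.ext fun l => ?_
    change ψ ((r • B.j g + B.j (1 - g)) * bE l) i = (Sum.elim (fun _ => r) (fun _ => 1) i : R) * ψ (bE l) i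
    rw [hbE, add_mul, smul_mul_assoc, ← map_mul, ← map_mul, sub_mul, one_mul]
    rcases l with l | l
    · rw [hl, sub_self, map_zero, add_zero, map_smul, Pi.smul_apply, smul_eq_mul, hψ,
        Basis.repr_self, Finsupp.single_apply]
      rcases i with i | i
      · simp
      · simp
    · rw [hr, sub_zero, map_zero, smul_zero, zero_add, hψ, Basis.repr_self, Finsupp.single_apply]
      rcases i with i | i
      · simp
      · simp
  exact LinearMap.congr_fun hf y

/-- The modulus of a scalar on the range of an idempotent. -/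
theorem mod_eq [LocallyCompactSpace R] [T2Space R] [SecondCountableTopology R] [MeasurableSpace R]
    [BorelSpace R] [LocallyCompactSpace E] {g : A} (hg : g * g = g) {M : ℕ}
    (hM : finrank k (LinearMap.range (LinearMap.mulLeft k g)) = M)
    (μ : Measure R) [μ.IsAddHaarMeasure] (r : Rˣ) {t : ℝ} (ht : 0 < t)
    (h : Scales μ r (ENNReal.ofReal t)) (d : Eˣ) (hd : (d : E) = (r : R) • B.j g + B.j (1 - g)) :
    (distribHaarChar E d : ℝ) = t ^ M := by
  classical
  borelize E
  obtain ⟨M', ψ, hψ⟩ := exists_adapt B hg hM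
  let T : Fin M ⊕ Fin M' → Rˣ := Sum.elim (fun _ => r) (fun _ => 1)
  let t' : Fin M ⊕ Fin M' → ℝ := Sum.elim (fun _ => t) (fun _ => 1)
  have ht' : ∀ i, 0 < t' i := by
    rintro (i | i)
    · exact ht
    · exact one_pos
  have hT : ∀ i, Scales μ (T i) (ENNReal.ofReal (t' i)) := by
    rintro (i | i)
    · exact h
    · change Scales μ 1 (ENNReal.ofReal 1)
      rw [ENNReal.ofReal_one]
      exact Scales.one (R := R) μ
  have hprod : ∏ i, t' i = t ^ M := by
    simp [t', Fintype.prod_sum_type]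
  have hψd : ∀ y : E, ∀ i, ψ ((d : E) * y) i = (T i : R) * ψ y i := by
    intro y i
    rw [hd, hψ (r : R) y i]
    rcases i with i | i <;> simp [T]
  set ν : Measure (Fin M ⊕ Fin M' → R) := Measure.pi fun _ => μ with hν
  let e : (Fin M ⊕ Fin M' → R) ≃ₜ+ E :=
    { ψ.symm.toLinearEquiv.toAddEquiv with
      continuous_toFun := ψ.symm.continuous
      continuous_invFun := ψ.continuous }
  have he : ∀ v, e v = ψ.symm v := fun v => rfl
  have hμE : (ν.map e).IsAddHaarMeasure := e.isAddHaarMeasure_map ν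
  have hreg : (ν.map e).Regular := Measure.Regular.map e.toHomeomorph
  obtain ⟨K, hK, hKn⟩ := exists_compact_mem_nhds (0 : Fin M ⊕ Fin M' → R)
  have hKm : MeasurableSet K := hK.measurableSet
  have hem : Measurable e := ψ.symm.continuous.measurable
  have hs : MeasurableSet (ψ ⁻¹' K) := ψ.continuous.measurable hKm
  have h0 : (ν.map e) (ψ ⁻¹' K) = ν K := by
    rw [Measure.map_apply hem hs]
    congr 1
    ext v
    rw [mem_preimage, mem_preimage, he, ContinuousLinearEquiv.apply_symm_apply]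
  have h1 : (ν.map e) (d • (ψ ⁻¹' K)) = ENNReal.ofReal (t ^ M) * ν K := by
    have hset : d • (ψ ⁻¹' K) = (fun y : E => ((d⁻¹ : Eˣ) : E) * y) ⁻¹' (ψ ⁻¹' K) := by
      ext y
      rw [Set.mem_smul_set_iff_inv_smul_mem]
      rfl
    have hcont : Continuous fun y : E => ((d⁻¹ : Eˣ) : E) * y := by fun_prop
    rw [hset, Measure.map_apply hem (hcont.measurable hs), ← hprod, ← pi_scale μ T t' ht' hT K hKm]
    congr 1
    ext v
    rw [mem_preimage, mem_preimage, mem_preimage, mem_preimage]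
    have h2 : ψ (((d⁻¹ : Eˣ) : E) * e v) = fun i => ((T i)⁻¹ : Rˣ) * v i := by
      funext i
      have h3 := hψd (((d⁻¹ : Eˣ) : E) * e v) i
      rw [← mul_assoc, Units.mul_inv, one_mul, he, ContinuousLinearEquiv.apply_symm_apply] at h3
      rw [he, h3, ← mul_assoc, Units.inv_mul, one_mul]
    rw [h2]
  have hne : (ν.map e) (ψ ⁻¹' K) ≠ 0 := by
    rw [h0]; exact (Measure.measure_pos_of_mem_nhds ν hKn).ne'
  have hnt : (ν.map e) (ψ ⁻¹' K) ≠ ∞ := by
    rw [h0]; exact hK.measure_lt_top.ne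
  have htM : 0 ≤ t ^ M := (pow_pos ht M).le
  have h4 : distribHaarChar E d = (t ^ M).toNNReal := by
    refine distribHaarChar_eq_of_measure_smul_eq_mul (μ := ν.map e) hne hnt ?_
    rw [h1, h0]
    rfl
  rw [h4, Real.coe_toNNReal _ htM]

/-- Common denominators: a multiple of `O^m` is mapped into the order. -/
theorem exists_scalar {O : Subring k} (hfr : ∀ x : k, ∃ d ∈ O, d ≠ 0 ∧ d * x ∈ O)
    {Lam : Subring A} (H : IsOrdR B.a O Lam) {m : ℕ} (σ : (Fin m → k) →ₗ[k] A) :
    ∃ c : k, c ≠ 0 ∧ ∀ o : Fin m → k, (∀ i, o i ∈ O) → σ (c • o) ∈ Lam := by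
  classical
  obtain ⟨d, hd, hdL⟩ := H.lo
  -- common denominator of a finite family
  have hcd : ∀ s : Finset k, ∃ c ∈ O, c ≠ 0 ∧ ∀ x ∈ s, c * x ∈ O := by
    intro s
    induction s using Finset.induction_on with
    | empty => exact ⟨1, O.one_mem, one_ne_zero, by simp⟩
    | insert a s _ ih =>
      obtain ⟨c, hc, hc0, hcs⟩ := ih
      obtain ⟨c', hc', hc0', hca⟩ := hfr a
      refine ⟨c * c', O.mul_mem hc hc', mul_ne_zero hc0 hc0', ?_⟩
      intro x hx
      rw [Finset.mem_insert] at hx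
      rcases hx with rfl | hx
      · rw [mul_assoc]
        exact O.mul_mem hc hca
      · rw [mul_right_comm]
        exact O.mul_mem (hcs x hx) hc'
  let e : Fin m → Fin m → k := fun i j => if i = j then 1 else 0
  obtain ⟨c, _, hc0, hcs⟩ := hcd (Finset.univ.image fun q : Fin m × ι => d⁻¹ * B.a.repr (σ (e q.1)) q.2)
  refine ⟨c, hc0, fun o ho => ?_⟩
  have h1 : σ (c • o) = ∑ i, (d * (∑ q, o q * (c * (d⁻¹ * B.a.repr (σ (e q)) i)))) • B.a i := by
    conv_lhs => rw [← B.a.sum_repr (σ (c • o))]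
    refine Finset.sum_congr rfl fun i _ => ?_
    congr 1
    rw [map_smul, LinearMap.pi_apply_eq_sum_univ σ o, map_smul, map_sum, Finsupp.smul_apply,
      Finsupp.finsetSum_apply, smul_eq_mul, Finset.mul_sum, Finset.mul_sum]
    refine Finset.sum_congr rfl fun q _ => ?_
    rw [map_smul, Finsupp.smul_apply, smul_eq_mul]
    have h2 : B.a.repr (σ (e q)) i = B.a.repr (σ fun j => if q = j then 1 else 0) i := rfl
    rw [h2]
    field_simp
  rw [h1]
  refine hdL _ fun i => O.sum_mem fun q _ => O.mul_mem (ho q) ?_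
  exact hcs _ (Finset.mem_image.2 ⟨(q, i), Finset.mem_univ _, rfl⟩)

end adapt

end Vale.Agent.P011.H152.CountM2

namespace Vale.Agent.P011.H40

open Vale.Agent.P011.H74 Vale.Agent.P011.H380.UpBC Vale.Agent.P011.H152.CountM2
  Vale.Agent.P011.H83

variable {k R A E ι : Type*} [Field k] [CommRing R] [TopologicalSpace R] [IsTopologicalRing R]
  [Algebra k R] [Ring A] [StarRing A] [Algebra k A] [Ring E] [StarRing E] [TopologicalSpace E]
  [IsTopologicalRing E] [Algebra R E] [Fintype ι] [DecidableEq ι] (B : BCR k R A E ι)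
  [Nontrivial R] [LocallyCompactSpace R] [T2Space R] [SecondCountableTopology R]
  [LocallyCompactSpace E] [MeasurableSpace E] [BorelSpace E]

theorem exists_count {O : Subring k} (hG : Good k R O) {Lam : Subring A} [Countable Lam]
    (H : IsOrdR B.a O Lam) {m M : ℕ} {g : A} (hg : g * g = g)
    (hM : finrank k (LinearMap.range (LinearMap.mulLeft k g)) = M) (hM0 : M ≠ 0)
    (σ : (Fin m → k) →ₗ[k] A) (hσ1 : ∀ x, g * σ x = σ x) (hσ2 : ∀ x, σ x * g = σ x)
    (hu : ∀ x, x ≠ 0 → IsUnit (σ x + (1 - g))) :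
    ∃ C : ℝ, 0 ≤ C ∧ ∀ Q : ℝ, 1 ≤ Q → ∀ P : Finset (Fin m → k),
      (∀ p ∈ P, ∀ p' ∈ P, ∀ l : Fin m → k, σ l ∈ Lam → p - p' + l ≠ 0 →
        ∀ d : Eˣ, (d : E) = B.j (σ (p - p' + l) + (1 - g)) → 1 ≤ Q * (distribHaarChar E d : ℝ)) →
      (∀ p ∈ P, ∀ p' ∈ P, σ (p - p') ∈ Lam → p = p') →
      (P.card : ℝ) ≤ C * Q ^ ((m : ℝ) / M) := by
  classical
  borelize R
  set μ : Measure R := Measure.addHaar with hμ
  obtain ⟨r, hr⟩ := hG.contr
  obtain ⟨t, ht, hS⟩ := exists_scales μ r
  have ht1 : t < 1 := lt_one_of_tendsto μ hr ht hS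
  have hSj : ∀ j : ℕ, Scales μ (r ^ j) (ENNReal.ofReal (t ^ j)) := by
    intro j
    rw [ENNReal.ofReal_pow ht.le]
    exact hS.pow j
  have hcs : ContinuousSMul R E := by
    refine ⟨?_⟩
    have h : (fun p : R × E ↦ p.1 • p.2) = fun p : R × E ↦ B.φ.symm (p.1 • B.φ p.2) := by
      funext p
      rw [← map_smul, ContinuousLinearEquiv.symm_apply_apply]
    rw [h]
    have h1 := B.φ.continuous
    have h2 := B.φ.symm.continuous
    fun_prop
  -- the extension of `σ`
  let e : Fin m → Fin m → k := fun i j => if i = j then 1 else 0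
  let σE : (Fin m → R) → E := fun v => ∑ i, v i • B.j (σ (e i))
  have hσc : Continuous σE := by
    change Continuous fun v : Fin m → R => ∑ i, v i • B.j (σ (e i))
    fun_prop
  let al : (Fin m → k) → (Fin m → R) := fun x i => algebraMap k R (x i)
  have hal_sub : ∀ x y, al (x - y) = al x - al y := by
    intro x y; funext i; simp [al]
  have hσal : ∀ x, σE (al x) = B.j (σ x) := by
    intro x
    rw [LinearMap.pi_apply_eq_sum_univ σ x, map_sum]
    refine Finset.sum_congr rfl fun i _ => ?_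
    rw [B.j_smul]
  have hσr : ∀ (a : R) (v : Fin m → R), σE (a • v) = a • σE v := by
    intro a v
    change ∑ i, (a • v) i • B.j (σ (e i)) = a • ∑ i, v i • B.j (σ (e i))
    rw [Finset.smul_sum]
    refine Finset.sum_congr rfl fun i _ => ?_
    rw [Pi.smul_apply, smul_assoc]
  have hgσ : ∀ v, B.j g * σE v = σE v := by
    intro v
    change B.j g * ∑ i, v i • B.j (σ (e i)) = ∑ i, v i • B.j (σ (e i))
    rw [Finset.mul_sum]
    refine Finset.sum_congr rfl fun i _ => ?_
    rw [mul_smul_comm, ← map_mul, hσ1]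
  -- compact sets
  obtain ⟨K0, hK0, hK0n⟩ := exists_compact_mem_nhds (0 : Fin m → R)
  set ν : Measure (Fin m → R) := Measure.pi fun _ => μ with hν
  have hν0 : ν K0 ≠ 0 := (Measure.measure_pos_of_mem_nhds ν hK0n).ne'
  have hνt : ν K0 ≠ ∞ := hK0.measure_lt_top.ne
  have hB2 : IsCompact (K0 - K0) := by
    rw [sub_eq_add_neg]
    exact hK0.add hK0.neg
  have hK2 : IsCompact ((fun v => σE v + B.j (1 - g)) '' (K0 - K0)) :=
    hB2.image (hσc.add continuous_const)
  obtain ⟨C2, hC21, hC2⟩ := exists_bound hK2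
  -- the lattice is cocompact
  obtain ⟨c, hc0, hcL⟩ := exists_scalar B hG.frac H σ
  obtain ⟨K1, hK1, hK1c⟩ := hG.coc
  have hcov : ∀ x : Fin m → k, ∃ o : Fin m → k, (∀ i, o i ∈ O) ∧
      al (x - c • o) ∈ (fun v : Fin m → R => algebraMap k R c • v) '' (Set.univ.pi fun _ => K1) := by
    intro x
    choose o ho hoK using fun i => hK1c (algebraMap k R (c⁻¹ * x i))
    refine ⟨o, ho, al (fun i => c⁻¹ * x i) - al o, ?_, ?_⟩
    · rw [Set.mem_univ_pi]
      intro i
      exact hoK i
    · funext i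
      simp only [al, Pi.sub_apply, Pi.smul_apply, smul_eq_mul, map_sub, map_mul]
      rw [mul_sub, ← mul_assoc, ← map_mul, mul_inv_cancel₀ hc0, map_one, one_mul]
  set KK : Set (Fin m → R) :=
    (fun v : Fin m → R => algebraMap k R c • v) '' (Set.univ.pi fun _ => K1) with hKK
  have hKKc : IsCompact KK := (isCompact_univ_pi fun _ => hK1).image (continuous_const_smul _)
  have hS0 : IsCompact (insert (0 : R) (Set.range fun j : ℕ => (r : R) ^ j)) :=
    hr.isCompact_insert_range
  have hSm : IsCompact ((fun z : R × (Fin m → R) => z.1 • z.2) ''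
      ((insert (0 : R) (Set.range fun j : ℕ => (r : R) ^ j)) ×ˢ K0)) :=
    (hS0.prod hK0).image continuous_smul
  set Big : Set (Fin m → R) := KK + ((fun z : R × (Fin m → R) => z.1 • z.2) ''
      ((insert (0 : R) (Set.range fun j : ℕ => (r : R) ^ j)) ×ˢ K0)) with hBig
  have hBigc : IsCompact Big := hKKc.add hSm
  have hBigt : ν Big ≠ ∞ := hBigc.measure_lt_top.ne
  -- the constants
  have htM1 : t ^ M < 1 := pow_lt_one₀ ht.le ht1 hM0
  have htM0 : 0 < t ^ M := pow_pos ht M
  have hC20 : 0 < C2 := lt_of_lt_of_le one_pos hC21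
  have hVK : 0 < (ν K0).toReal := ENNReal.toReal_pos hν0 hνt
  refine ⟨(ν Big).toReal / (ν K0).toReal * (C2 / t ^ M) ^ ((m : ℝ) / M), ?_, ?_⟩
  · positivity
  intro Q hQ P hP hP'
  have hQ0 : 0 < Q := lt_of_lt_of_le one_pos hQ
  -- the exponent
  have hex : ∃ j : ℕ, (t ^ M) ^ j < 1 / (Q * C2) :=
    exists_pow_lt_of_lt_one (by positivity) htM1
  set j := Nat.find hex with hj
  have hj1 : (t ^ M) ^ j < 1 / (Q * C2) := Nat.find_spec hex
  have hj0 : 0 < j := by
    rcases Nat.eq_zero_or_pos j with h0 | h0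
    · exfalso
      rw [h0, pow_zero, lt_div_iff₀ (by positivity), one_mul] at hj1
      have : (1 : ℝ) * 1 ≤ Q * C2 := mul_le_mul hQ hC21 zero_le_one hQ0.le
      linarith
    · exact h0
  have hj2 : 1 / (Q * C2) ≤ (t ^ M) ^ (j - 1) := by
    have := Nat.find_min hex (Nat.sub_lt hj0 one_pos)
    exact not_lt.1 this
  have hj3 : t ^ M / (Q * C2) ≤ (t ^ M) ^ j := by
    have h1 : (t ^ M) ^ j = t ^ M * (t ^ M) ^ (j - 1) := by
      rw [← pow_succ', Nat.sub_add_cancel hj0]
    rw [h1, div_eq_mul_one_div]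
    exact mul_le_mul_of_nonneg_left hj2 htM0.le
  -- the unit `d_j`
  have hgg : (1 - g) * g = 0 := by rw [sub_mul, one_mul, hg, sub_self]
  have hgg' : g * (1 - g) = 0 := by rw [mul_sub, mul_one, hg, sub_self]
  have h1g : (1 - g) * (1 - g) = 1 - g := by rw [mul_sub, mul_one, hgg, sub_zero]
  have hprod : ∀ (a b : R) , (a • B.j g + B.j (1 - g)) * (b • B.j g + B.j (1 - g)) =
      (a * b) • B.j g + B.j (1 - g) := by
    intro a b
    rw [add_mul, mul_add, mul_add, smul_mul_smul_comm, ← map_mul, hg, smul_mul_assoc, ← map_mul,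
      hgg', map_zero, smul_zero, add_zero, mul_smul_comm, ← map_mul, hgg, map_zero, smul_zero,
      zero_add, ← map_mul, h1g]
  have hone : (1 : R) • B.j g + B.j (1 - g) = 1 := by
    rw [one_smul, ← map_add, add_sub_cancel, map_one]
  let dj : Eˣ := ⟨((r ^ j : Rˣ) : R) • B.j g + B.j (1 - g),
    (((r ^ j)⁻¹ : Rˣ) : R) • B.j g + B.j (1 - g), by
      rw [hprod, Units.mul_inv, hone], by rw [hprod, Units.inv_mul, hone]⟩
  have hdj : (distribHaarChar E dj : ℝ) = (t ^ j) ^ M :=
    mod_eq B hg hM μ (r ^ j) (pow_pos ht j) (hSj j) dj rfl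
  -- translates
  choose o hoO hoK using hcov
  let q : (Fin m → k) → (Fin m → k) := fun p => p - c • o p
  have hq : ∀ p, al (q p) ∈ KK := fun p => hoK p
  let Aj : (Fin m → k) → Set (Fin m → R) := fun p =>
    (fun v => al (q p) + v) '' ((fun x i => (((r ^ j)⁻¹ : Rˣ) : R) * x i) ⁻¹' K0)
  have hfm : Continuous fun (x : Fin m → R) (i : Fin m) => (((r ^ j)⁻¹ : Rˣ) : R) * x i := by
    fun_prop
  have hAm : ∀ p, MeasurableSet (Aj p) := by
    intro p
    have h1 : Aj p = (fun v => -al (q p) + v) ⁻¹'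
        ((fun x i => (((r ^ j)⁻¹ : Rˣ) : R) * x i) ⁻¹' K0) := by
      change (fun v => al (q p) + v) '' _ = _
      rw [Set.image_add_left]
    rw [h1]
    have h2 : Continuous fun v : Fin m → R => -al (q p) + v := by fun_prop
    exact h2.measurable (hfm.measurable hK0.measurableSet)
  have hAν : ∀ p, ν (Aj p) = ENNReal.ofReal ((t ^ j) ^ m) * ν K0 := by
    intro p
    have h1 : ν (Aj p) = ν ((fun x i => (((r ^ j)⁻¹ : Rˣ) : R) * x i) ⁻¹' K0) := by
      change ν ((fun v => al (q p) + v) '' _) = _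
      rw [Set.image_add_left]
      exact measure_preimage_add ν _ _
    have h2 := pi_scale μ (fun _ : Fin m => r ^ j) (fun _ => t ^ j) (fun _ => pow_pos ht j)
      (fun _ => hSj j) K0 hK0.measurableSet
    rw [h1, h2, Finset.prod_const, Finset.card_univ, Fintype.card_fin]
  have hmem : ∀ p v, v ∈ Aj p → ∃ w ∈ K0, v = al (q p) + ((r ^ j : Rˣ) : R) • w := by
    rintro p _ ⟨v, hv, rfl⟩
    refine ⟨_, hv, ?_⟩
    funext i
    simp only [Pi.add_apply, Pi.smul_apply, smul_eq_mul]
    rw [← mul_assoc, Units.mul_inv, one_mul]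
  have hAB : ∀ p, Aj p ⊆ Big := by
    intro p v hv
    obtain ⟨w, hw, rfl⟩ := hmem p v hv
    refine ⟨al (q p), hq p, ((r ^ j : Rˣ) : R) • w, ⟨(((r ^ j : Rˣ) : R), w), ⟨?_, hw⟩, rfl⟩, rfl⟩
    right
    exact ⟨j, by simp⟩
  have hdisj : ∀ p ∈ P, ∀ p' ∈ P, p ≠ p' → Disjoint (Aj p) (Aj p') := by
    intro p hp p' hp' hne
    rw [Set.disjoint_left]
    intro v hv hv'
    obtain ⟨w, hw, h1⟩ := hmem p v hv
    obtain ⟨w', hw', h2⟩ := hmem p' v hv'
    set l : Fin m → k := c • (o p' - o p) with hl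
    have hlL : σ l ∈ Lam := hcL _ fun i => O.sub_mem (hoO p' i) (hoO p i)
    have hx : p - p' + l = q p - q p' := by
      change p - p' + c • (o p' - o p) = (p - c • o p) - (p' - c • o p')
      rw [smul_sub]; abel
    have hy : al (q p - q p') = ((r ^ j : Rˣ) : R) • (w' - w) := by
      rw [hal_sub, smul_sub]
      rw [h1] at h2
      rw [sub_eq_sub_iff_add_eq_add, h2]
      abel
    by_cases hx0 : p - p' + l = 0
    · refine hne (hP' p hp p' hp' ?_)
      have h3 : p - p' = -l := eq_neg_of_add_eq_zero_left hx0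
      rw [h3, map_neg]
      exact Lam.neg_mem hlL
    · obtain ⟨u0, hu0⟩ := hu _ hx0
      set d : Eˣ := Units.map (B.j : A →* E) u0 with hd
      have hdv : (d : E) = B.j (σ (p - p' + l) + (1 - g)) := by
        rw [← hu0]; rfl
      have h3 := hP p hp p' hp' l hlL hx0 d hdv
      set d' : Eˣ := dj⁻¹ * d with hd'
      have hd'v : (d' : E) = σE (w' - w) + B.j (1 - g) := by
        have h4 : (d : E) = (dj : E) * (σE (w' - w) + B.j (1 - g)) := by
          rw [hdv, map_add, ← hσal, hx, hy, hσr]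
          change ((r ^ j : Rˣ) : R) • σE (w' - w) + B.j (1 - g) =
            (((r ^ j : Rˣ) : R) • B.j g + B.j (1 - g)) * (σE (w' - w) + B.j (1 - g))
          have h5 : B.j (1 - g) * σE (w' - w) = 0 := by
            rw [map_sub, map_one, sub_mul, one_mul, hgσ, sub_self]
          rw [add_mul, mul_add, mul_add, smul_mul_assoc, hgσ, smul_mul_assoc, ← map_mul, hgg',
            map_zero, smul_zero, add_zero, h5, zero_add, ← map_mul, h1g]
        rw [hd', Units.val_mul, h4, ← mul_assoc, Units.inv_mul, one_mul]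
      have hd'K : (d' : E) ∈ (fun v => σE v + B.j (1 - g)) '' (K0 - K0) :=
        ⟨w' - w, ⟨w', hw', w, hw, rfl⟩, hd'v.symm⟩
      have h4 := hC2 d' hd'K
      have h5 : (distribHaarChar E d : ℝ) = (t ^ M) ^ j * (distribHaarChar E d' : ℝ) := by
        have h6 : d = dj * d' := by rw [hd', mul_inv_cancel_left]
        rw [h6, map_mul, NNReal.coe_mul, hdj, ← pow_mul, ← pow_mul, mul_comm j M]
      rw [h5] at h3
      have h6 : (t ^ M) ^ j * (distribHaarChar E d' : ℝ) ≤ (t ^ M) ^ j * C2 :=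
        mul_le_mul_of_nonneg_left h4 (pow_pos htM0 j).le
      have h7 : Q * ((t ^ M) ^ j * C2) < 1 := by
        rw [lt_div_iff₀ (by positivity)] at hj1
        calc Q * ((t ^ M) ^ j * C2) = (t ^ M) ^ j * (Q * C2) := by ring
          _ < 1 := hj1
      have h8 : Q * ((t ^ M) ^ j * (distribHaarChar E d' : ℝ)) ≤ Q * ((t ^ M) ^ j * C2) :=
        mul_le_mul_of_nonneg_left h6 hQ0.le
      linarith
  -- the measure
  have hsum : (P.card : ℝ≥0∞) * (ENNReal.ofReal ((t ^ j) ^ m) * ν K0) ≤ ν Big := by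
    calc (P.card : ℝ≥0∞) * (ENNReal.ofReal ((t ^ j) ^ m) * ν K0) = ∑ p ∈ P, ν (Aj p) := by
          rw [Finset.sum_congr rfl fun p _ => hAν p, Finset.sum_const, nsmul_eq_mul]
      _ = ν (⋃ p ∈ P, Aj p) := by
          rw [measure_biUnion_finset]
          · intro p hp p' hp' hne
            exact hdisj p hp p' hp' hne
          · intro p _
            exact hAm p
      _ ≤ ν Big := measure_mono (Set.iUnion₂_subset fun p _ => hAB p)
  have htj : 0 < (t ^ j) ^ m := pow_pos (pow_pos ht j) m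
  have hreal : (P.card : ℝ) * ((t ^ j) ^ m * (ν K0).toReal) ≤ (ν Big).toReal := by
    have h1 := ENNReal.toReal_mono hBigt hsum
    rwa [ENNReal.toReal_mul, ENNReal.toReal_mul, ENNReal.toReal_natCast,
      ENNReal.toReal_ofReal htj.le] at h1
  have hpow : (t ^ M / (Q * C2)) ^ ((m : ℝ) / M) ≤ (t ^ j) ^ m := by
    have h1 : ((t ^ M) ^ j) ^ ((m : ℝ) / M) = (t ^ j) ^ m := by
      have hM' : (M : ℝ) ≠ 0 := by exact_mod_cast hM0
      rw [← pow_mul, mul_comm M j, pow_mul, ← Real.rpow_natCast (t ^ j) M, ← Real.rpow_mul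
        (pow_pos ht j).le, mul_div_cancel₀ _ hM', Real.rpow_natCast]
    rw [← h1]
    exact Real.rpow_le_rpow (by positivity) hj3 (by positivity)
  have hpos2 : 0 < (t ^ M / (Q * C2)) ^ ((m : ℝ) / M) := Real.rpow_pos_of_pos (by positivity) _
  have h1 : (P.card : ℝ) * ((t ^ M / (Q * C2)) ^ ((m : ℝ) / M) * (ν K0).toReal) ≤
      (ν Big).toReal := by
    refine le_trans ?_ hreal
    have h2 : (0 : ℝ) ≤ P.card := Nat.cast_nonneg _
    exact mul_le_mul_of_nonneg_left (mul_le_mul_of_nonneg_right hpow hVK.le) h2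
  have h2 : (C2 / t ^ M) ^ ((m : ℝ) / M) * Q ^ ((m : ℝ) / M) =
      ((t ^ M / (Q * C2)) ^ ((m : ℝ) / M))⁻¹ := by
    rw [← Real.mul_rpow (by positivity) hQ0.le, ← Real.inv_rpow (by positivity)]
    congr 1
    field_simp
  rw [mul_assoc, h2, div_mul_eq_mul_div, ← div_eq_mul_inv, div_div, le_div_iff₀ (by positivity)]
  rw [mul_comm ((t ^ M / (Q * C2)) ^ ((m : ℝ) / M)) _] at h1
  linarith [h1]

end Vale.Agent.P011.H40
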