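import Vale.Agent.P011.H40.Mass
import Vale.Agent.P011.H152.CountM2

/-!
# Counting for `2 x 2` matrices

The three counting statements for the corners of `M_2(D)` (piece P10 of the upper bound).
-/

set_option autoImplicit false
set_option linter.unusedSectionVars false

open Module

namespace Vale.Agent.P011.H40

open Vale.Agent.P011.H74 Vale.Agent.P011.H380.UpBC Vale.Agent.P011.H699

namespace Mat2

section

variable {A : Type*} [Ring A] [StarRing A] {Lam : Subring A} {e f u v : A}
  (h : Mat2 Lam e f u v)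

include h

theorem sw : Mat2 Lam f e v u where
  he := h.hf
  hf := h.he
  hu := h.hv
  hv := h.hu
  ef := by rw [add_comm]; exact h.ef
  ee := h.ff
  se := h.sf
  eu := h.fv
  ve := h.uf
  uv := h.vu
  vu := h.uv

theorem uu0 : u * u = 0 := by
  have : u * u = (u * f) * (e * u) := by rw [h.uf, h.eu]
  rw [this, mul_assoc, ← mul_assoc f, h.fe0, zero_mul, mul_zero]

theorem ue0 : u * e = 0 := by rw [← h.uf, mul_assoc, h.fe0, mul_zero]

theorem fu0 : f * u = 0 := by rw [← h.eu, ← mul_assoc, h.fe0, zero_mul]

theorem f_ne (he0 : e ≠ 0) : f ≠ 0 := by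
  intro hf0
  apply he0
  rw [← h.uv, ← h.uf, hf0, mul_zero, zero_mul]

/-- a nonzero element of the second corner is invertible -/
theorem unit_f (hdiv : ∀ x, e * x = x → x * e = x → x ≠ 0 → IsUnit (x + f)) (x : A)
    (h1 : f * x = x) (h2 : x * f = x) (h0 : x ≠ 0) : IsUnit (x + e) := by
  have hvx : v * x = 0 := by
    rw [← h1, ← mul_assoc, h.sw.ue0, zero_mul]
  have hxu : x * u = 0 := by
    rw [← h2, mul_assoc, h.fu0, mul_zero]
  have ht : (u + v) * (u + v) = 1 := by
    rw [mul_add, add_mul, add_mul, h.uu0, h.vu, h.uv, h.sw.uu0, zero_add, add_zero, add_comm]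
    exact h.ef
  have h3 : (u + v) * (x + e) * (u + v) = u * x * v + f := by
    have e1 : (u + v) * (x + e) = u * x + v := by
      rw [mul_add, add_mul, add_mul, hvx, h.ue0, h.ve, add_zero, zero_add]
    rw [e1, mul_add, add_mul, add_mul, mul_assoc u x u, hxu, mul_zero, zero_add, h.vu,
      h.sw.uu0, add_zero, add_comm]
  have h4 : IsUnit (u * x * v + f) := by
    refine hdiv _ ?_ ?_ ?_
    · rw [← mul_assoc, ← mul_assoc, h.eu]
    · rw [mul_assoc, h.ve]
    · intro h5
      apply h0
      have h6 : v * (u * x * v) * u = x := by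
        rw [mul_assoc u x v, ← mul_assoc v u, h.vu, mul_assoc, mul_assoc x v u, h.vu, h2, h1]
      rw [← h6, h5, mul_zero, zero_mul]
  have hu : IsUnit (u + v) := ⟨⟨u + v, u + v, ht, ht⟩, rfl⟩
  rw [← h3] at h4
  have h7 : x + e = (u + v) * ((u + v) * (x + e) * (u + v)) * (u + v) := by
    rw [mul_assoc, mul_assoc ((u + v) * (x + e)), ht, mul_one, ← mul_assoc, ht, one_mul]
  rw [h7]
  exact (hu.mul h4).mul hu

end

section dims

variable {k A : Type*} [Field k] [Ring A] [StarRing A] [Algebra k A] [FiniteDimensional k A]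
  {Lam : Subring A} {e f u v : A}

/-- the corner -/
def corner (k : Type*) {A : Type*} [Field k] [Ring A] [Algebra k A] (e : A) : Submodule k A where
  carrier := {x | e * x = x ∧ x * e = x}
  add_mem' := fun {a b} ha hb => ⟨by rw [mul_add, ha.1, hb.1], by rw [add_mul, ha.2, hb.2]⟩
  zero_mem' := ⟨mul_zero _, zero_mul _⟩
  smul_mem' := fun c x hx => ⟨by rw [mul_smul_comm, hx.1], by rw [smul_mul_assoc, hx.2]⟩

/-- symmetric elements of the corner -/
def scorner {k A : Type*} [Field k] [Ring A] [StarRing A] [Algebra k A]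
    (hst : ∀ (c : k) (x : A), star (c • x) = c • star x) (e : A) : Submodule k A where
  carrier := {x | star x = x ∧ e * x = x}
  add_mem' := fun {a b} ha hb => ⟨by rw [star_add, ha.1, hb.1], by rw [mul_add, ha.2, hb.2]⟩
  zero_mem' := ⟨star_zero _, mul_zero _⟩
  smul_mem' := fun c x hx => ⟨by rw [hst, hx.1], by rw [mul_smul_comm, hx.2]⟩

theorem scorner_mul (hst : ∀ (c : k) (x : A), star (c • x) = c • star x) (se : star e = e) {x : A}
    (hx : x ∈ scorner hst e) : x * e = x := by
  have h1 : star x = x := hx.1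
  have h2 : e * x = x := hx.2
  have h3 := congrArg star h2
  rwa [star_mul, h1, se] at h3

include e in
theorem finrank_left (h : Mat2 Lam e f u v) :
    finrank k (LinearMap.range (LinearMap.mulLeft k e)) = 2 * finrank k (corner k e) := by
  have hr : ∀ x : LinearMap.range (LinearMap.mulLeft k e), e * (x : A) = x := by
    rintro ⟨_, y, rfl⟩
    change e * (e * y) = e * y
    rw [← mul_assoc, h.ee]
  let g : LinearMap.range (LinearMap.mulLeft k e) ≃ₗ[k] (corner k e × corner k e) :=
    { toFun := fun x => (⟨x * e, ⟨by rw [← mul_assoc, hr x], by rw [mul_assoc, h.ee]⟩⟩,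
        ⟨x * v, ⟨by rw [← mul_assoc, hr x], by rw [mul_assoc, h.ve]⟩⟩)
      map_add' := fun x y => by
        refine Prod.ext (Subtype.ext ?_) (Subtype.ext ?_)
        · exact add_mul _ _ _
        · exact add_mul _ _ _
      map_smul' := fun c x => by
        refine Prod.ext (Subtype.ext ?_) (Subtype.ext ?_)
        · exact smul_mul_assoc _ _ _
        · exact smul_mul_assoc _ _ _
      invFun := fun p => ⟨(p.1 : A) + p.2 * u, (p.1 : A) + p.2 * u, by
        change e * ((p.1 : A) + p.2 * u) = _
        rw [mul_add, ← mul_assoc, p.1.2.1, p.2.2.1]⟩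
      left_inv := fun x => by
        apply Subtype.ext
        change (x : A) * e + x * v * u = x
        rw [mul_assoc, h.vu, ← mul_add, h.ef, mul_one]
      right_inv := fun p => by
        refine Prod.ext (Subtype.ext ?_) (Subtype.ext ?_)
        · change ((p.1 : A) + p.2 * u) * e = p.1
          rw [add_mul, mul_assoc, h.ue0, mul_zero, add_zero, p.1.2.2]
        · change ((p.1 : A) + p.2 * u) * v = p.2
          have h1 : (p.1 : A) * v = 0 := by
            rw [← p.1.2.2, mul_assoc, h.sw.fu0, mul_zero]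
          rw [add_mul, mul_assoc, h.uv, h1, zero_add, p.2.2.2] }
  rw [g.finrank_eq, Module.finrank_prod, two_mul]

theorem finrank_corner (hst : ∀ (c : k) (x : A), star (c • x) = c • star x) (se : star e = e)
    {w : A} (hw : ∀ x, w * x = x * w) (hwu : IsUnit (w - star w)) :
    finrank k (corner k e) = 2 * finrank k (scorner hst e) := by
  obtain ⟨dl, hdl⟩ := hwu
  have hsw : ∀ x, star w * x = x * star w := by
    intro x
    have := congrArg star (hw (star x))
    rw [star_mul, star_mul, star_star] at this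
    exact this.symm
  have hdc : ∀ x, (dl : A) * x = x * dl := by
    intro x
    rw [hdl, sub_mul, mul_sub, hw, hsw]
  set d : A := ((dl⁻¹ : Aˣ) : A) with hd
  have hdi : ∀ x, d * x = x * d := fun x => Commute.units_inv_left (hdc x)
  have hd1 : d * (w - star w) = 1 := by rw [← hdl, hd, Units.inv_mul]
  have hsd : star d = -d := by
    have h1 : star d * (star w - w) = 1 := by
      have := congrArg star hd1
      rw [star_mul, star_sub, star_star, star_one] at this
      rw [← this, sub_mul, mul_sub, hw, hsw]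
    have h2 : -star d * (w - star w) = 1 := by
      rw [neg_mul, ← mul_neg, neg_sub]
      exact h1
    have h3 : -star d = d := by
      calc -star d = -star d * ((w - star w) * d) := by
            rw [← hdi, hd1, mul_one]
        _ = d := by rw [← mul_assoc, h2, one_mul]
    exact neg_eq_iff_eq_neg.1 h3
  let g : (scorner hst e × scorner hst e) →ₗ[k] corner k e :=
    { toFun := fun p => ⟨(p.1 : A) + w * p.2, by
        have h1 : e * (p.1 : A) = p.1 := p.1.2.2
        have h2 : e * (p.2 : A) = p.2 := p.2.2.2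
        have h3 := scorner_mul hst se p.1.2
        have h4 := scorner_mul hst se p.2.2
        refine ⟨?_, ?_⟩
        · rw [mul_add, h1, ← mul_assoc, ← hw, mul_assoc, h2]
        · rw [add_mul, h3, mul_assoc, h4]⟩
      map_add' := fun x y => by
        apply Subtype.ext
        change (x.1 : A) + y.1 + w * ((x.2 : A) + y.2) = (x.1 : A) + w * x.2 + (y.1 + w * y.2)
        rw [mul_add]; abel
      map_smul' := fun c x => by
        apply Subtype.ext
        change c • (x.1 : A) + w * (c • (x.2 : A)) = c • ((x.1 : A) + w * x.2)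
        rw [mul_smul_comm, smul_add] }
  have hinj : Function.Injective g := by
    rw [← LinearMap.ker_eq_bot, LinearMap.ker_eq_bot']
    rintro ⟨s, s'⟩ hs
    have h1 : (s : A) + w * s' = 0 := congrArg Subtype.val hs
    have h2 : star (s : A) = s := s.2.1
    have h3 : star (s' : A) = s' := s'.2.1
    have h4 : (s : A) + star w * s' = 0 := by
      have := congrArg star h1
      rw [star_add, star_mul, h2, h3, star_zero, ← hsw] at this
      exact this
    have h5 : (s' : A) = 0 := by
      have h6 : (w - star w) * (s' : A) = 0 := by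
        rw [sub_mul, sub_eq_zero]
        exact add_left_cancel (h1.trans h4.symm)
      rw [← one_mul (s' : A), ← hd1, mul_assoc, h6, mul_zero]
    have h6 : (s : A) = 0 := by rw [h5, mul_zero, add_zero] at h1; exact h1
    exact Prod.ext (Subtype.ext h6) (Subtype.ext h5)
  have hsur : Function.Surjective g := by
    rintro ⟨x, hx1, hx2⟩
    have hex : e * star x = star x := by
      have := congrArg star hx2
      rwa [star_mul, se] at this
    have hs' : d * (x - star x) ∈ scorner hst e := by
      refine ⟨?_, ?_⟩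
      · rw [star_mul, hsd, star_sub, star_star, hdi, mul_neg, ← neg_mul, neg_sub]
      · rw [← mul_assoc, ← hdi, mul_assoc, mul_sub, hx1, hex]
    have hs : x - w * (d * (x - star x)) ∈ scorner hst e := by
      have h1 : star (d * (x - star x)) = d * (x - star x) := hs'.1
      refine ⟨?_, ?_⟩
      · rw [star_sub, star_mul, h1, ← hsw]
        have h2 : (w - star w) * (d * (x - star x)) = x - star x := by
          rw [← mul_assoc, ← hdi, hd1, one_mul]
        rw [sub_mul] at h2
        rw [eq_add_of_sub_eq h2]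
        abel
      · have h2 : e * (d * (x - star x)) = d * (x - star x) := hs'.2
        rw [mul_sub, hx1, ← mul_assoc, ← hw, mul_assoc, h2]
    refine ⟨(⟨_, hs⟩, ⟨_, hs'⟩), ?_⟩
    apply Subtype.ext
    change x - w * (d * (x - star x)) + w * (d * (x - star x)) = x
    exact sub_add_cancel _ _
  rw [← (LinearEquiv.ofBijective g ⟨hinj, hsur⟩).finrank_eq, Module.finrank_prod, two_mul]

end dims

end Mat2

section count

variable {k R A E ι : Type*} [Field k] [CommRing R] [TopologicalSpace R] [IsTopologicalRing R]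
  [Algebra k R] [Ring A] [StarRing A] [Algebra k A] [Ring E] [StarRing E] [TopologicalSpace E]
  [IsTopologicalRing E] [Algebra R E] [Fintype ι] [DecidableEq ι] (B : BCR k R A E ι)
  [Nontrivial R] [LocallyCompactSpace R] [T2Space R] [SecondCountableTopology R]
  [LocallyCompactSpace E] [MeasurableSpace E] [BorelSpace E]

theorem countP_of {O : Subring k} (hG : Good k R O) {Lam : Subring A} [Countable Lam]
    (H : IsOrdR B.a O Lam) {m M : ℕ} {g g' : A} (hg : g * g = g) (hg' : g' = 1 - g)
    (hM : finrank k (LinearMap.range (LinearMap.mulLeft k g)) = M) (hM0 : M ≠ 0)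
    (V : Submodule k A) (hm : finrank k V = m) (hV1 : ∀ x ∈ V, g * x = x)
    (hV2 : ∀ x ∈ V, x * g = x) (hu : ∀ x ∈ V, x ≠ 0 → IsUnit (x + g')) :
    CountP B.j Lam (V : Set A) g' ((m : ℝ) / M) := by
  classical
  have : Module.Finite k A := Module.Finite.of_basis B.a
  obtain ⟨b⟩ : Nonempty (V ≃ₗ[k] (Fin m → k)) :=
    ⟨LinearEquiv.ofFinrankEq _ _ (by rw [hm, finrank_fin_fun])⟩
  set σ : (Fin m → k) →ₗ[k] A := V.subtype ∘ₗ (b.symm : (Fin m → k) →ₗ[k] V) with hσ
  have hσV : ∀ x, σ x ∈ V := fun x => (b.symm x).2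
  have hσi : Function.Injective σ := fun x y hxy => b.symm.injective (Subtype.ext hxy)
  have hσs : ∀ x ∈ V, ∃ y, σ y = x := fun x hx => ⟨b ⟨x, hx⟩, by
    change ((b.symm (b ⟨x, hx⟩) : V) : A) = x
    rw [b.symm_apply_apply]⟩
  obtain ⟨C, hC0, hC⟩ := exists_count B hG H hg hM hM0 σ (fun x => hV1 _ (hσV x))
    (fun x => hV2 _ (hσV x)) (fun x hx => by
      rw [← hg']
      exact hu _ (hσV x) fun h => hx (hσi (h.trans (map_zero σ).symm)))
  refine ⟨C, hC0, fun Q hQ P hP h1 h2 => ?_⟩
  have h3 := hC Q hQ (P.preimage σ hσi.injOn) ?_ ?_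
  · have h4 : (P.preimage σ hσi.injOn).card = P.card := by
      rw [← Finset.card_image_of_injective _ hσi]
      congr 1
      rw [Finset.image_preimage]
      refine Finset.filter_true_of_mem fun x hx => ?_
      obtain ⟨y, hy⟩ := hσs x (hP x hx)
      exact ⟨y, hy⟩
    rwa [h4] at h3
  · intro p hp p' hp' l hl hne d hd
    rw [Finset.mem_preimage] at hp hp'
    refine h1 _ hp _ hp' (σ l) hl (hσV l) ?_ d ?_
    · rw [← map_sub, ← map_add]
      exact fun h => hne (hσi (h.trans (map_zero σ).symm))
    · rw [hd, ← map_sub, ← map_add, hg']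
  · intro p hp p' hp' hpp
    rw [Finset.mem_preimage] at hp hp'
    rw [map_sub] at hpp
    exact hσi (h2 _ hp _ hp' hpp)

include B in
theorem star_smul_of (c : k) (x : A) : star (c • x) = c • star x := by
  apply B.j_inj
  rw [B.j_star, B.j_smul, B.star_smul, B.j_smul, B.j_star]

theorem counts_aux {O : Subring k} (hG : Good k R O) {Lam : Subring A} [Countable Lam]
    (H : IsOrdR B.a O Lam) {e f u v : A} (h : Mat2 Lam e f u v) (he0 : e ≠ 0)
    (hdiv : ∀ x, e * x = x → x * e = x → x ≠ 0 → IsUnit (x + f)) {w : A}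
    (hw : ∀ x, w * x = x * w) (hwu : IsUnit (w - star w)) :
    CountP B.j Lam {x | e * x = x ∧ x * e = x} f (1 / 2) ∧
    CountP B.j Lam {x | star x = x ∧ e * x = x} f (1 / 4) := by
  have : Module.Finite k A := Module.Finite.of_basis B.a
  have hst := star_smul_of B
  have hc0 : finrank k (Mat2.corner k e) ≠ 0 := by
    intro h0
    have h1 : Mat2.corner k e = ⊥ := Submodule.finrank_eq_zero.1 h0
    have h2 : e ∈ Mat2.corner k e := ⟨h.ee, h.ee⟩
    rw [h1, Submodule.mem_bot] at h2
    exact he0 h2
  have hleft := h.finrank_left (k := k)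
  have hcor := Mat2.finrank_corner (k := k) hst h.se hw hwu
  have hM0 : 2 * finrank k (Mat2.corner k e) ≠ 0 := by omega
  refine ⟨?_, ?_⟩
  · have := countP_of B hG H h.ee h.f_eq hleft hM0 (Mat2.corner k e) rfl (fun x hx => hx.1)
      (fun x hx => hx.2) (fun x hx h0 => hdiv x hx.1 hx.2 h0)
    have h1 : (finrank k (Mat2.corner k e) : ℝ) ≠ 0 := by exact_mod_cast hc0
    have h2 : ((finrank k (Mat2.corner k e) : ℕ) : ℝ) / ((2 * finrank k (Mat2.corner k e) : ℕ) : ℝ)
        = 1 / 2 := by
      push_cast
      field_simp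
    rw [h2] at this
    exact this
  · have := countP_of B hG H h.ee h.f_eq hleft hM0 (Mat2.scorner hst e) rfl (fun x hx => hx.2)
      (fun x hx => Mat2.scorner_mul hst h.se hx)
      (fun x hx h0 => hdiv x hx.2 (Mat2.scorner_mul hst h.se hx) h0)
    have h1 : (finrank k (Mat2.corner k e) : ℝ) ≠ 0 := by exact_mod_cast hc0
    have h2 : (finrank k (Mat2.scorner hst e) : ℝ) ≠ 0 := by
      intro h3
      rw [hcor] at h1
      push_cast at h1
      rw [h3] at h1
      simp at h1
    have h3 : ((finrank k (Mat2.scorner hst e) : ℕ) : ℝ) /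
        ((2 * finrank k (Mat2.corner k e) : ℕ) : ℝ) = 1 / 4 := by
      rw [hcor]
      push_cast
      field_simp
      norm_num
    rw [h3] at this
    exact this

theorem counts_M2 {O : Subring k} (hG : Good k R O) {Lam : Subring A} [Countable Lam]
    (H : IsOrdR B.a O Lam) {e f u v : A} (h : Mat2 Lam e f u v) (he0 : e ≠ 0)
    (hdiv : ∀ x, e * x = x → x * e = x → x ≠ 0 → IsUnit (x + f)) {w : A}
    (hw : ∀ x, w * x = x * w) (hwu : IsUnit (w - star w)) :
    CountP B.j Lam {x | star x = x ∧ f * x = x} e (1 / 4) ∧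
    CountP B.j Lam {x | e * x = x ∧ x * e = x} f (1 / 2) ∧
    CountP B.j Lam {x | star x = x ∧ e * x = x} f (1 / 4) :=
  ⟨(counts_aux B hG H h.sw (h.f_ne he0) (fun x h1 h2 h0 => h.unit_f hdiv x h1 h2 h0) hw hwu).2,
    counts_aux B hG H h he0 hdiv hw hwu⟩

end count

end Vale.Agent.P011.H40
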