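import Mathlib

/-!
# Finitely additive means: complex and vector valued means, Cauchy-Schwarz, Bessel
-/

namespace Vale.Agent.P011.H152

/-- Bounded real function. -/
def Bdd {X : Type*} (f : X → ℝ) : Prop := ∃ C : ℝ, ∀ x, |f x| ≤ C

/-- A mean on `X`: only its values on bounded functions matter. -/
structure IsMean {X : Type*} (m : (X → ℝ) → ℝ) : Prop where
  add : ∀ f g, Bdd f → Bdd g → m (fun x => f x + g x) = m f + m g
  smul : ∀ (c : ℝ) (f), Bdd f → m (fun x => c * f x) = c * m f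
  nonneg : ∀ f, Bdd f → (∀ x, 0 ≤ f x) → 0 ≤ m f
  one : m (fun _ => 1) = 1

section bdd

variable {X : Type*}

theorem Bdd.of_le {f : X → ℝ} {C : ℝ} (h : ∀ x, |f x| ≤ C) : Bdd f := ⟨C, h⟩

theorem Bdd.const (c : ℝ) : Bdd (fun _ : X => c) := ⟨|c|, fun _ => le_refl _⟩

theorem Bdd.add {f g : X → ℝ} (hf : Bdd f) (hg : Bdd g) : Bdd (fun x => f x + g x) := by
  obtain ⟨A, hA⟩ := hf
  obtain ⟨B, hB⟩ := hg
  exact ⟨A + B, fun x => (abs_add_le _ _).trans (add_le_add (hA x) (hB x))⟩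

theorem Bdd.mul {f g : X → ℝ} (hf : Bdd f) (hg : Bdd g) : Bdd (fun x => f x * g x) := by
  obtain ⟨A, hA⟩ := hf
  obtain ⟨B, hB⟩ := hg
  refine ⟨A * B, fun x => ?_⟩
  rw [abs_mul]
  exact mul_le_mul (hA x) (hB x) (abs_nonneg _) ((abs_nonneg _).trans (hA x))

theorem Bdd.const_mul (c : ℝ) {f : X → ℝ} (hf : Bdd f) : Bdd (fun x => c * f x) :=
  (Bdd.const c).mul hf

theorem Bdd.neg {f : X → ℝ} (hf : Bdd f) : Bdd (fun x => -f x) := by
  obtain ⟨A, hA⟩ := hf
  exact ⟨A, fun x => by rw [abs_neg]; exact hA x⟩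

theorem Bdd.sub {f g : X → ℝ} (hf : Bdd f) (hg : Bdd g) : Bdd (fun x => f x - g x) := by
  simpa [sub_eq_add_neg] using hf.add hg.neg

theorem Bdd.abs {f : X → ℝ} (hf : Bdd f) : Bdd (fun x => |f x|) := by
  obtain ⟨A, hA⟩ := hf
  exact ⟨A, fun x => by rw [abs_abs]; exact hA x⟩

theorem Bdd.sq {f : X → ℝ} (hf : Bdd f) : Bdd (fun x => f x ^ 2) := by
  have h := hf.mul hf
  have e : (fun x => f x ^ 2) = fun x => f x * f x := by funext x; ring
  rw [e]; exact h

theorem Bdd.sum {ι : Type*} (s : Finset ι) {f : ι → X → ℝ} (hf : ∀ i ∈ s, Bdd (f i)) :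
    Bdd (fun x => ∑ i ∈ s, f i x) := by
  classical
  induction s using Finset.induction_on with
  | empty => simpa using Bdd.const (X := X) 0
  | insert a s ha ih =>
    simp only [Finset.sum_insert ha]
    exact (hf a (Finset.mem_insert_self _ _)).add
      (ih fun i hi => hf i (Finset.mem_insert_of_mem hi))

theorem Bdd.comp {Y : Type*} {f : X → ℝ} (hf : Bdd f) (φ : Y → X) : Bdd (fun y => f (φ y)) := by
  obtain ⟨A, hA⟩ := hf
  exact ⟨A, fun x => hA _⟩

end bdd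

namespace IsMean

variable {X : Type*} {m : (X → ℝ) → ℝ}

theorem neg (h : IsMean m) {f : X → ℝ} (hf : Bdd f) : m (fun x => -f x) = -m f := by
  have h1 := h.smul (-1) f hf
  have e : (fun x => -f x) = fun x => (-1) * f x := by funext x; ring
  rw [e, h1]; ring

theorem sub (h : IsMean m) {f g : X → ℝ} (hf : Bdd f) (hg : Bdd g) :
    m (fun x => f x - g x) = m f - m g := by
  have h1 := h.add f (fun x => -g x) hf hg.neg
  rw [h.neg hg] at h1
  simpa [sub_eq_add_neg] using h1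

theorem mono (h : IsMean m) {f g : X → ℝ} (hf : Bdd f) (hg : Bdd g) (hfg : ∀ x, f x ≤ g x) :
    m f ≤ m g := by
  have h1 := h.nonneg (fun x => g x - f x) (hg.sub hf) (fun x => sub_nonneg.2 (hfg x))
  rw [h.sub hg hf] at h1
  linarith

theorem const (h : IsMean m) (c : ℝ) : m (fun _ => c) = c := by
  have h1 := h.smul c (fun _ => 1) (Bdd.const 1)
  rw [h.one] at h1
  simpa using h1

theorem zero (h : IsMean m) : m (fun _ => 0) = 0 := h.const 0

theorem le_const (h : IsMean m) {f : X → ℝ} (hf : Bdd f) {c : ℝ} (hfc : ∀ x, f x ≤ c) :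
    m f ≤ c := by
  have h1 := h.mono hf (Bdd.const c) hfc
  rwa [h.const] at h1

theorem abs_le (h : IsMean m) {f : X → ℝ} (hf : Bdd f) : |m f| ≤ m (fun x => |f x|) := by
  rw [_root_.abs_le]
  constructor
  · have h1 := h.mono hf.abs.neg hf (fun x => neg_abs_le (f x))
    rwa [h.neg hf.abs] at h1
  · exact h.mono hf hf.abs (fun x => le_abs_self (f x))

theorem sum (h : IsMean m) {ι : Type*} (s : Finset ι) {f : ι → X → ℝ}
    (hf : ∀ i ∈ s, Bdd (f i)) : m (fun x => ∑ i ∈ s, f i x) = ∑ i ∈ s, m (f i) := by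
  classical
  induction s using Finset.induction_on with
  | empty => simpa using h.zero
  | insert a s ha ih =>
    simp only [Finset.sum_insert ha]
    rw [h.add _ _ (hf a (Finset.mem_insert_self _ _))
      (Bdd.sum s fun i hi => hf i (Finset.mem_insert_of_mem hi)),
      ih fun i hi => hf i (Finset.mem_insert_of_mem hi)]

/-- Cauchy-Schwarz. -/
theorem cs (h : IsMean m) {f g : X → ℝ} (hf : Bdd f) (hg : Bdd g) :
    m (fun x => f x * g x) ^ 2 ≤ m (fun x => f x ^ 2) * m (fun x => g x ^ 2) := by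
  set A := m (fun x => f x ^ 2)
  set B := m (fun x => f x * g x)
  set C := m (fun x => g x ^ 2)
  have hq : ∀ s t : ℝ, 0 ≤ s ^ 2 * A + 2 * (s * t) * B + t ^ 2 * C := by
    intro s t
    have h1 := h.nonneg (fun x => (s * f x + t * g x) ^ 2)
      ((hf.const_mul s).add (hg.const_mul t)).sq (fun x => sq_nonneg _)
    have e : (fun x => (s * f x + t * g x) ^ 2) =
        fun x => (s ^ 2 * f x ^ 2 + 2 * (s * t) * (f x * g x)) + t ^ 2 * g x ^ 2 := by
      funext x; ring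
    rw [e, h.add _ _ ((hf.sq.const_mul _).add ((hf.mul hg).const_mul _)) (hg.sq.const_mul _),
      h.add _ _ (hf.sq.const_mul _) ((hf.mul hg).const_mul _), h.smul _ _ hf.sq,
      h.smul _ _ (hf.mul hg), h.smul _ _ hg.sq] at h1
    exact h1
  have hC : 0 ≤ C := by simpa using hq 0 1
  have h1 := hq C (-B)
  rcases hC.lt_or_eq with hC' | hC'
  · have h2 : 0 ≤ C * (A * C - B ^ 2) := by nlinarith
    have h3 := nonneg_of_mul_nonneg_right h2 hC'
    linarith
  · have hA : 0 ≤ A := by simpa using hq 1 0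
    rw [← hC'] at hq ⊢
    rw [mul_zero]
    by_cases hB : B = 0
    · rw [hB]; norm_num
    · exfalso
      have h2 := hq 1 (-(A + 1) / (2 * B))
      have h3 : 2 * (1 * (-(A + 1) / (2 * B))) * B = -(A + 1) := by
        field_simp
      rw [h3] at h2
      linarith

theorem sq_le (h : IsMean m) {f : X → ℝ} (hf : Bdd f) : m f ^ 2 ≤ m (fun x => f x ^ 2) := by
  have h1 := h.cs hf (Bdd.const 1)
  simpa [h.one] using h1

theorem sum_mul (h : IsMean m) {f : X → ℝ} (hf : Bdd f) (c : ℝ) :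
    m (fun x => f x * c) = m f * c := by
  have e : (fun x => f x * c) = fun x => c * f x := by funext x; ring
  rw [e, h.smul c f hf, mul_comm]

/-- If `m |f|^2 = 0` then `m |f| = 0`. -/
theorem abs_eq_zero (h : IsMean m) {f : X → ℝ} (hf : Bdd f) (h0 : m (fun x => f x ^ 2) = 0) :
    m (fun x => |f x|) = 0 := by
  have h1 := h.sq_le hf.abs
  simp only [sq_abs] at h1
  rw [h0] at h1
  have h2 := h.nonneg _ hf.abs (fun x => abs_nonneg _)
  nlinarith

/-- If `m |f| = 0` then `m |f|^2 = 0`. -/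
theorem sq_eq_zero (h : IsMean m) {f : X → ℝ} (hf : Bdd f) (h0 : m (fun x => |f x|) = 0) :
    m (fun x => f x ^ 2) = 0 := by
  obtain ⟨C, hC⟩ := hf
  have hf : Bdd f := ⟨C, hC⟩
  have h1 := h.mono hf.sq (hf.abs.const_mul C) (fun x => by
    have h2 : f x ^ 2 = |f x| * |f x| := by rw [← sq, sq_abs]
    rw [h2]
    exact mul_le_mul_of_nonneg_right (hC x) (abs_nonneg _))
  rw [h.smul _ _ hf.abs, h0, mul_zero] at h1
  have h2 := h.nonneg _ hf.sq (fun x => sq_nonneg _)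
  linarith

/-- The mean of the indicator of a finite set is `0` for an invariant mean on an infinite group:
the form needed is the bound for a function with bounded sums over finite sets. -/
theorem mean_zero_of_sum_le {G : Type*} [AddCommGroup G] [Infinite G] {m : (G → ℝ) → ℝ}
    (h : IsMean m) (hinv : ∀ (b : G) (f), Bdd f → m (fun x => f (x + b)) = m f)
    {f : G → ℝ} (hf0 : ∀ x, 0 ≤ f x) {C : ℝ} (hC : ∀ s : Finset G, ∑ x ∈ s, f x ≤ C) :
    m f = 0 := by
  classical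
  have hb : Bdd f := ⟨C, fun x => by
    rw [abs_of_nonneg (hf0 x)]
    simpa using hC {x}⟩
  have h0 := h.nonneg f hb hf0
  have hC0 : 0 ≤ C := by simpa using hC ∅
  by_contra hne
  have hpos : 0 < m f := lt_of_le_of_ne h0 (Ne.symm hne)
  obtain ⟨N, hN⟩ := exists_nat_gt (C / m f)
  obtain ⟨s, hs⟩ := Infinite.exists_subset_card_eq G N
  have h1 : m (fun x => ∑ b ∈ s, f (x + b)) = (N : ℝ) * m f := by
    rw [h.sum s (f := fun b x => f (x + b)) (fun b _ => hb.comp _)]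
    rw [Finset.sum_congr rfl (fun b _ => hinv b f hb)]
    rw [Finset.sum_const, hs, nsmul_eq_mul]
  have h2 : m (fun x => ∑ b ∈ s, f (x + b)) ≤ C := by
    refine h.le_const (Bdd.sum s fun b _ => hb.comp _) (fun x => ?_)
    have h3 := hC (s.image (fun b => x + b))
    rwa [Finset.sum_image (fun a _ b _ hab => add_left_cancel hab)] at h3
  rw [h1] at h2
  rw [div_lt_iff₀ hpos] at hN
  linarith

end IsMean

/-! ## Complex means -/

section cmean

variable {X : Type*}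

/-- Bounded complex function. -/
def CBdd (f : X → ℂ) : Prop := ∃ C : ℝ, ∀ x, ‖f x‖ ≤ C

theorem CBdd.norm {f : X → ℂ} (hf : CBdd f) : Bdd (fun x => ‖f x‖) := by
  obtain ⟨C, hC⟩ := hf
  exact ⟨C, fun x => by rw [abs_of_nonneg (norm_nonneg _)]; exact hC x⟩

theorem CBdd.re {f : X → ℂ} (hf : CBdd f) : Bdd (fun x => (f x).re) := by
  obtain ⟨C, hC⟩ := hf
  exact ⟨C, fun x => (Complex.abs_re_le_norm _).trans (hC x)⟩

theorem CBdd.im {f : X → ℂ} (hf : CBdd f) : Bdd (fun x => (f x).im) := by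
  obtain ⟨C, hC⟩ := hf
  exact ⟨C, fun x => (Complex.abs_im_le_norm _).trans (hC x)⟩

theorem CBdd.add {f g : X → ℂ} (hf : CBdd f) (hg : CBdd g) : CBdd (fun x => f x + g x) := by
  obtain ⟨A, hA⟩ := hf
  obtain ⟨B, hB⟩ := hg
  exact ⟨A + B, fun x => (norm_add_le _ _).trans (add_le_add (hA x) (hB x))⟩

theorem CBdd.mul {f g : X → ℂ} (hf : CBdd f) (hg : CBdd g) : CBdd (fun x => f x * g x) := by
  obtain ⟨A, hA⟩ := hf
  obtain ⟨B, hB⟩ := hg
  refine ⟨A * B, fun x => ?_⟩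
  rw [norm_mul]
  exact mul_le_mul (hA x) (hB x) (norm_nonneg _) ((norm_nonneg _).trans (hA x))

theorem CBdd.const (c : ℂ) : CBdd (fun _ : X => c) := ⟨‖c‖, fun _ => le_refl _⟩

theorem CBdd.const_mul (c : ℂ) {f : X → ℂ} (hf : CBdd f) : CBdd (fun x => c * f x) :=
  (CBdd.const c).mul hf

theorem CBdd.conj {f : X → ℂ} (hf : CBdd f) : CBdd (fun x => (starRingEnd ℂ) (f x)) := by
  obtain ⟨A, hA⟩ := hf
  exact ⟨A, fun x => by rw [RCLike.norm_conj]; exact hA x⟩

theorem CBdd.comp {Y : Type*} {f : X → ℂ} (hf : CBdd f) (φ : Y → X) :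
    CBdd (fun y => f (φ y)) := by
  obtain ⟨A, hA⟩ := hf
  exact ⟨A, fun x => hA _⟩

/-- The complex mean. -/
noncomputable def cm (m : (X → ℝ) → ℝ) (f : X → ℂ) : ℂ :=
  ⟨m (fun x => (f x).re), m (fun x => (f x).im)⟩

variable {m : (X → ℝ) → ℝ}

theorem cm_add (h : IsMean m) {f g : X → ℂ} (hf : CBdd f) (hg : CBdd g) :
    cm m (fun x => f x + g x) = cm m f + cm m g := by
  apply Complex.ext
  · simp only [cm, Complex.add_re]
    exact h.add _ _ hf.re hg.re
  · simp only [cm, Complex.add_im]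
    exact h.add _ _ hf.im hg.im

theorem cm_smul (h : IsMean m) (c : ℂ) {f : X → ℂ} (hf : CBdd f) :
    cm m (fun x => c * f x) = c * cm m f := by
  apply Complex.ext
  · simp only [cm, Complex.mul_re]
    rw [h.sub (hf.re.const_mul _) (hf.im.const_mul _), h.smul _ _ hf.re, h.smul _ _ hf.im]
  · simp only [cm, Complex.mul_im]
    rw [h.add _ _ (hf.im.const_mul _) (hf.re.const_mul _), h.smul _ _ hf.re, h.smul _ _ hf.im]

theorem cm_conj (h : IsMean m) {f : X → ℂ} (hf : CBdd f) :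
    cm m (fun x => (starRingEnd ℂ) (f x)) = (starRingEnd ℂ) (cm m f) := by
  apply Complex.ext
  · simp [cm]
  · simp only [cm, Complex.conj_im]
    exact h.neg hf.im

theorem cm_ofReal (h : IsMean m) (f : X → ℝ) :
    cm m (fun x => (f x : ℂ)) = (m f : ℂ) := by
  apply Complex.ext
  · simp [cm]
  · simp only [cm, Complex.ofReal_im]
    exact h.zero

theorem norm_cm_le (h : IsMean m) {f : X → ℂ} (hf : CBdd f) :
    ‖cm m f‖ ≤ m (fun x => ‖f x‖) := by
  by_cases h0 : cm m f = 0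
  · rw [h0, norm_zero]
    exact h.nonneg _ hf.norm (fun x => norm_nonneg _)
  set c : ℂ := (starRingEnd ℂ) (cm m f) / ‖cm m f‖ with hc
  have hn : (‖cm m f‖ : ℂ) ≠ 0 := by
    rw [Complex.ofReal_ne_zero]
    exact norm_ne_zero_iff.2 h0
  have hc1 : ‖c‖ = 1 := by
    rw [hc, norm_div, RCLike.norm_conj, Complex.norm_real, norm_norm]
    exact div_self (norm_ne_zero_iff.2 h0)
  have h1 : c * cm m f = (‖cm m f‖ : ℂ) := by
    rw [hc, div_mul_eq_mul_div, div_eq_iff hn, Complex.conj_mul', sq]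
  have h2 : ((cm m (fun x => c * f x)).re) = ‖cm m f‖ := by
    rw [cm_smul h c hf, h1, Complex.ofReal_re]
  rw [← h2]
  show m (fun x => (c * f x).re) ≤ _
  refine h.mono (hf.const_mul c).re hf.norm (fun x => ?_)
  refine (Complex.re_le_norm _).trans ?_
  rw [norm_mul, hc1, one_mul]

/-- Cauchy-Schwarz for the complex mean. -/
theorem norm_cm_mul_sq_le (h : IsMean m) {f g : X → ℂ} (hf : CBdd f) (hg : CBdd g) :
    ‖cm m (fun x => f x * g x)‖ ^ 2 ≤ m (fun x => ‖f x‖ ^ 2) * m (fun x => ‖g x‖ ^ 2) := by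
  have h1 := norm_cm_le h (hf.mul hg)
  simp only [norm_mul] at h1
  have h2 := h.cs hf.norm hg.norm
  exact (pow_le_pow_left₀ (norm_nonneg _) h1 2).trans h2

end cmean

/-! ## Vector valued means -/

section vmean

variable {X : Type*} {m : (X → ℝ) → ℝ} {H : Type*} [NormedAddCommGroup H]
  [InnerProductSpace ℂ H]

/-- Bounded vector valued function. -/
def VBdd (u : X → H) : Prop := ∃ C : ℝ, ∀ x, ‖u x‖ ≤ C

theorem VBdd.inner_left {u : X → H} (hu : VBdd u) (v : H) : CBdd (fun x => inner ℂ (u x) v) := by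
  obtain ⟨C, hC⟩ := hu
  exact ⟨C * ‖v‖, fun x => (norm_inner_le_norm _ _).trans
    (mul_le_mul_of_nonneg_right (hC x) (norm_nonneg _))⟩

theorem VBdd.inner_right {u : X → H} (hu : VBdd u) (v : H) : CBdd (fun x => inner ℂ v (u x)) := by
  obtain ⟨C, hC⟩ := hu
  exact ⟨‖v‖ * C, fun x => (norm_inner_le_norm _ _).trans
    (mul_le_mul_of_nonneg_left (hC x) (norm_nonneg _))⟩

theorem VBdd.smul {u : X → H} (hu : VBdd u) {f : X → ℂ} (hf : CBdd f) :
    VBdd (fun x => f x • u x) := by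
  obtain ⟨C, hC⟩ := hu
  obtain ⟨A, hA⟩ := hf
  refine ⟨A * C, fun x => ?_⟩
  rw [norm_smul]
  exact mul_le_mul (hA x) (hC x) (norm_nonneg _) ((norm_nonneg _).trans (hA x))

/-- The mean of a bounded vector valued function exists (weakly). -/
theorem exists_vm [CompleteSpace H] (h : IsMean m) {u : X → H} (hu : VBdd u) :
    ∃ w : H, ∀ v, inner ℂ w v = cm m (fun x => inner ℂ (u x) v) := by
  obtain ⟨C, hC⟩ := id hu
  let ℓ : H →ₗ[ℂ] ℂ :=
    { toFun := fun v => cm m (fun x => inner ℂ (u x) v)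
      map_add' := fun v w => by
        simp only [inner_add_right]
        exact cm_add h (hu.inner_left v) (hu.inner_left w)
      map_smul' := fun c v => by
        simp only [inner_smul_right, RingHom.id_apply, smul_eq_mul]
        exact cm_smul h c (hu.inner_left v) }
  let L : H →L[ℂ] ℂ := ℓ.mkContinuous (max C 0) (fun v => by
    show ‖cm m (fun x => inner ℂ (u x) v)‖ ≤ _
    refine (norm_cm_le h (hu.inner_left v)).trans ?_
    refine h.le_const (hu.inner_left v).norm (fun x => ?_)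
    refine (norm_inner_le_norm _ _).trans ?_
    exact mul_le_mul_of_nonneg_right ((hC x).trans (le_max_left _ _)) (norm_nonneg _))
  refine ⟨(InnerProductSpace.toDual ℂ H).symm L, fun v => ?_⟩
  rw [InnerProductSpace.toDual_symm_apply]
  rfl

end vmean

/-! ## A Bessel inequality in the mean -/

section bessel

variable {X : Type*} {m : (X → ℝ) → ℝ} {H : Type*} [NormedAddCommGroup H]
  [InnerProductSpace ℂ H]

/-- Pointwise Bessel inequality for almost orthogonal vectors. -/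
theorem bessel_pt {ι : Type*} [Fintype ι] [DecidableEq ι] (u : ι → H) (z : H) {M Z : ℝ}
    (hM : ∀ i, ‖u i‖ ≤ M) (hZ : ‖z‖ ≤ Z) :
    (∑ i, ‖inner ℂ (u i) z‖ ^ 2) ^ 2 ≤ Z ^ 2 * M ^ 2 * (∑ i, ‖inner ℂ (u i) z‖ ^ 2) +
      Z ^ 4 * M ^ 2 * ∑ i, ∑ j ∈ Finset.univ.erase i, ‖inner ℂ (u i) (u j)‖ := by
  set p : ℝ := ∑ i, ‖inner ℂ (u i) z‖ ^ 2 with hp
  set w : H := ∑ i, (inner ℂ (u i) z : ℂ) • u i with hw
  have hZ0 : 0 ≤ Z := (norm_nonneg _).trans hZ
  have hc : ∀ i, ‖(inner ℂ (u i) z : ℂ)‖ ≤ M * Z := fun i =>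
    (norm_inner_le_norm _ _).trans
      (mul_le_mul (hM i) hZ (norm_nonneg _) ((norm_nonneg _).trans (hM i)))
  have h1 : (inner ℂ w z : ℂ) = (p : ℂ) := by
    rw [hw, sum_inner, hp]
    push_cast
    refine Finset.sum_congr rfl (fun i _ => ?_)
    rw [inner_smul_left, Complex.conj_mul']
  have hp0 : 0 ≤ p := Finset.sum_nonneg fun i _ => by positivity
  have h2 : p ≤ ‖w‖ * Z := by
    have h3 : ‖(inner ℂ w z : ℂ)‖ ≤ ‖w‖ * ‖z‖ := norm_inner_le_norm _ _
    rw [h1, Complex.norm_real, Real.norm_eq_abs, abs_of_nonneg hp0] at h3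
    exact h3.trans (mul_le_mul_of_nonneg_left hZ (norm_nonneg _))
  have h4 : ‖w‖ ^ 2 ≤ M ^ 2 * p +
      (M * Z) ^ 2 * ∑ i, ∑ j ∈ Finset.univ.erase i, ‖inner ℂ (u i) (u j)‖ := by
    have h5 : (inner ℂ w w : ℂ) = ∑ i, ∑ j, (starRingEnd ℂ) (inner ℂ (u i) z) *
        ((inner ℂ (u j) z) * inner ℂ (u i) (u j)) := by
      rw [hw, sum_inner]
      refine Finset.sum_congr rfl (fun i _ => ?_)
      rw [inner_smul_left, inner_sum, Finset.mul_sum]
      refine Finset.sum_congr rfl (fun j _ => ?_)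
      rw [inner_smul_right]
    have h6 : ‖w‖ ^ 2 = ‖(inner ℂ w w : ℂ)‖ := by
      rw [inner_self_eq_norm_sq_to_K]
      simp
    rw [h6, h5]
    refine (norm_sum_le _ _).trans ?_
    have h7 : ∀ i, ‖∑ j, (starRingEnd ℂ) (inner ℂ (u i) z) *
        ((inner ℂ (u j) z) * inner ℂ (u i) (u j))‖ ≤ M ^ 2 * ‖inner ℂ (u i) z‖ ^ 2 +
        (M * Z) ^ 2 * ∑ j ∈ Finset.univ.erase i, ‖inner ℂ (u i) (u j)‖ := by
      intro i
      refine (norm_sum_le _ _).trans ?_
      rw [← Finset.add_sum_erase _ _ (Finset.mem_univ i)]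
      refine add_le_add ?_ ?_
      · rw [norm_mul, norm_mul, RCLike.norm_conj]
        have h8 : ‖(inner ℂ (u i) (u i) : ℂ)‖ ≤ M ^ 2 := by
          refine (norm_inner_le_norm _ _).trans ?_
          rw [sq]
          exact mul_le_mul (hM i) (hM i) (norm_nonneg _) ((norm_nonneg _).trans (hM i))
        nlinarith [sq_nonneg ‖(inner ℂ (u i) z : ℂ)‖]
      · rw [Finset.mul_sum]
        refine Finset.sum_le_sum (fun j _ => ?_)
        rw [norm_mul, norm_mul, RCLike.norm_conj, ← mul_assoc, sq]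
        refine mul_le_mul_of_nonneg_right ?_ (norm_nonneg _)
        exact mul_le_mul (hc i) (hc j) (norm_nonneg _) ((norm_nonneg _).trans (hc i))
    refine (Finset.sum_le_sum fun i _ => h7 i).trans ?_
    rw [Finset.sum_add_distrib, ← Finset.mul_sum, ← Finset.mul_sum]
  have h9 : p ^ 2 ≤ ‖w‖ ^ 2 * Z ^ 2 := by
    rw [← mul_pow]
    exact pow_le_pow_left₀ hp0 h2 2
  have h10 : ‖w‖ ^ 2 * Z ^ 2 ≤ (M ^ 2 * p +
      (M * Z) ^ 2 * ∑ i, ∑ j ∈ Finset.univ.erase i, ‖inner ℂ (u i) (u j)‖) * Z ^ 2 :=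
    mul_le_mul_of_nonneg_right h4 (sq_nonneg _)
  nlinarith

/-- Bessel inequality in the mean for almost orthogonal families. -/
theorem mean_bessel (h : IsMean m) {ι : Type*} [Fintype ι] [DecidableEq ι] (u : ι → X → H)
    (z : X → H) {M Z : ℝ} (hM : ∀ i x, ‖u i x‖ ≤ M) (hZ : ∀ x, ‖z x‖ ≤ Z) :
    (∑ i, m (fun x => ‖inner ℂ (u i x) (z x)‖ ^ 2)) ^ 2 ≤
      Z ^ 2 * M ^ 2 * (∑ i, m (fun x => ‖inner ℂ (u i x) (z x)‖ ^ 2)) +
      Z ^ 4 * M ^ 2 * ∑ i, ∑ j ∈ Finset.univ.erase i, m (fun x => ‖inner ℂ (u i x) (u j x)‖) := by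
  have hb1 : ∀ i, Bdd (fun x => ‖(inner ℂ (u i x) (z x) : ℂ)‖ ^ 2) := by
    intro i
    refine Bdd.sq ⟨M * Z, fun x => ?_⟩
    rw [abs_of_nonneg (norm_nonneg _)]
    exact (norm_inner_le_norm _ _).trans
      (mul_le_mul (hM i x) (hZ x) (norm_nonneg _) ((norm_nonneg _).trans (hM i x)))
  have hb2 : ∀ i j, Bdd (fun x => ‖(inner ℂ (u i x) (u j x) : ℂ)‖) := by
    intro i j
    refine ⟨M * M, fun x => ?_⟩
    rw [abs_of_nonneg (norm_nonneg _)]
    exact (norm_inner_le_norm _ _).trans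
      (mul_le_mul (hM i x) (hM j x) (norm_nonneg _) ((norm_nonneg _).trans (hM i x)))
  have hbs : Bdd (fun x => ∑ i, ‖(inner ℂ (u i x) (z x) : ℂ)‖ ^ 2) :=
    Bdd.sum _ fun i _ => hb1 i
  have hbt : Bdd (fun x => ∑ i, ∑ j ∈ Finset.univ.erase i,
      ‖(inner ℂ (u i x) (u j x) : ℂ)‖) :=
    Bdd.sum _ fun i _ => Bdd.sum _ fun j _ => hb2 i j
  have e1 : ∑ i, m (fun x => ‖inner ℂ (u i x) (z x)‖ ^ 2) =
      m (fun x => ∑ i, ‖(inner ℂ (u i x) (z x) : ℂ)‖ ^ 2) :=
    (h.sum _ fun i _ => hb1 i).symm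
  have e2 : ∑ i, ∑ j ∈ Finset.univ.erase i, m (fun x => ‖inner ℂ (u i x) (u j x)‖) =
      m (fun x => ∑ i, ∑ j ∈ Finset.univ.erase i, ‖(inner ℂ (u i x) (u j x) : ℂ)‖) := by
    rw [h.sum _ (f := fun i x => ∑ j ∈ Finset.univ.erase i,
      ‖(inner ℂ (u i x) (u j x) : ℂ)‖) fun i _ => Bdd.sum _ fun j _ => hb2 i j]
    refine Finset.sum_congr rfl fun i _ => ?_
    exact (h.sum _ fun j _ => hb2 i j).symm
  rw [e1, e2]
  refine (h.sq_le hbs).trans ?_
  rw [← h.smul _ _ hbs, ← h.smul _ _ hbt, ← h.add _ _ (hbs.const_mul _) (hbt.const_mul _)]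
  exact h.mono hbs.sq ((hbs.const_mul _).add (hbt.const_mul _))
    (fun x => bessel_pt (fun i => u i x) (z x) (fun i => hM i x) (hZ x))

end bessel

end Vale.Agent.P011.H152
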