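import Mathlib

/-!
# Commuting projections with bounded overlap; almost periodic parts for a unitary action of an
additive group
-/

namespace Vale.Agent.P011.H152

open Submodule

variable {H : Type*} [NormedAddCommGroup H] [InnerProductSpace ℂ H]

/-- A linear map sending `K` to `K'` and `Kᗮ` to `K'ᗮ` intertwines the projections. -/
theorem proj_conj (K K' : Submodule ℂ H) [K.HasOrthogonalProjection]
    [K'.HasOrthogonalProjection] (A : H →ₗ[ℂ] H)
    (h1 : ∀ x ∈ K, A x ∈ K') (h2 : ∀ x ∈ Kᗮ, A x ∈ K'ᗮ) (x : H) :
    K'.starProjection (A x) = A (K.starProjection x) := by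
  apply eq_starProjection_of_mem_orthogonal (h1 _ (starProjection_apply_mem K x))
  rw [← map_sub]
  exact h2 _ (sub_starProjection_mem_orthogonal x)

/-- Iterated products of distinct projections kill `x`. -/
def Kill {κ : Type*} [DecidableEq κ] (P : κ → H → H) : ℕ → Finset κ → H → Prop
  | 0, _, x => x = 0
  | n + 1, s, x => ∀ i ∈ s, Kill P n (s.erase i) (P i x)

theorem inner_proj_proj {κ : Type*} (K : κ → Submodule ℂ H)
    [∀ i, (K i).HasOrthogonalProjection]
    (hc : ∀ i j x, (K i).starProjection ((K j).starProjection x) =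
      (K j).starProjection ((K i).starProjection x)) (i j : κ) (x : H) :
    (inner ℂ ((K i).starProjection x) ((K j).starProjection x) : ℂ) =
      ((‖(K j).starProjection ((K i).starProjection x)‖ ^ 2 : ℝ) : ℂ) := by
  have hid : ∀ (l : κ) (y : H), (K l).starProjection ((K l).starProjection y) =
      (K l).starProjection y := fun l y =>
    starProjection_eq_self_iff.2 (starProjection_apply_mem _ _)
  calc (inner ℂ ((K i).starProjection x) ((K j).starProjection x) : ℂ)
      = inner ℂ ((K i).starProjection ((K i).starProjection x)) ((K j).starProjection x) := by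
        rw [hid]
    _ = inner ℂ ((K i).starProjection x) ((K i).starProjection ((K j).starProjection x)) :=
        inner_starProjection_left_eq_right _ _ _
    _ = inner ℂ ((K i).starProjection x) ((K j).starProjection ((K i).starProjection x)) := by
        rw [hc]
    _ = inner ℂ ((K i).starProjection x)
          ((K j).starProjection ((K j).starProjection ((K i).starProjection x))) := by
        rw [hid]
    _ = inner ℂ ((K j).starProjection ((K i).starProjection x))
          ((K j).starProjection ((K i).starProjection x)) :=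
        (inner_starProjection_left_eq_right _ _ _).symm
    _ = _ := by
        rw [inner_self_eq_norm_sq_to_K]
        norm_cast

/-- Commuting projections with bounded overlap. -/
theorem overlap {κ : Type*} [DecidableEq κ] (K : κ → Submodule ℂ H)
    [∀ i, (K i).HasOrthogonalProjection]
    (hc : ∀ i j x, (K i).starProjection ((K j).starProjection x) =
      (K j).starProjection ((K i).starProjection x)) :
    ∀ (n : ℕ) (s : Finset κ) (x : H), Kill (fun i y => (K i).starProjection y) (n + 1) s x →
      ∑ i ∈ s, ‖(K i).starProjection x‖ ^ 2 ≤ n * ‖x‖ ^ 2 := by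
  intro n
  induction n with
  | zero =>
    intro s x h
    have h1 : ∑ i ∈ s, ‖(K i).starProjection x‖ ^ 2 = 0 := by
      refine Finset.sum_eq_zero (fun i hi => ?_)
      have h2 : (K i).starProjection x = 0 := h i hi
      rw [h2, norm_zero]; norm_num
    rw [h1]
    simp
  | succ n ih =>
    intro s x h
    set S : ℝ := ∑ i ∈ s, ‖(K i).starProjection x‖ ^ 2 with hS
    set w : H := ∑ i ∈ s, (K i).starProjection x with hw
    have h1 : ∀ i ∈ s, ∑ j ∈ s, ‖(K j).starProjection ((K i).starProjection x)‖ ^ 2 ≤
        (n + 1) * ‖(K i).starProjection x‖ ^ 2 := by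
      intro i hi
      rw [← Finset.add_sum_erase _ _ hi]
      have h2 := ih (s.erase i) ((K i).starProjection x) (h i hi)
      have h3 : (K i).starProjection ((K i).starProjection x) = (K i).starProjection x :=
        starProjection_eq_self_iff.2 (starProjection_apply_mem _ _)
      rw [h3]
      linarith
    have h4 : ‖w‖ ^ 2 ≤ (n + 1) * S := by
      have h5 : (inner ℂ w w : ℂ) = ((∑ i ∈ s, ∑ j ∈ s,
          ‖(K j).starProjection ((K i).starProjection x)‖ ^ 2 : ℝ) : ℂ) := by
        rw [hw, sum_inner]
        push_cast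
        refine Finset.sum_congr rfl (fun i _ => ?_)
        rw [inner_sum]
        refine Finset.sum_congr rfl (fun j _ => ?_)
        rw [inner_proj_proj K hc i j x]
        norm_cast
      have h6 : ((‖w‖ ^ 2 : ℝ) : ℂ) = inner ℂ w w := by
        rw [inner_self_eq_norm_sq_to_K]
        norm_cast
      have h7 : ‖w‖ ^ 2 = ∑ i ∈ s, ∑ j ∈ s,
          ‖(K j).starProjection ((K i).starProjection x)‖ ^ 2 := by
        have := h6.trans h5
        exact_mod_cast this
      rw [h7, hS, Finset.mul_sum]
      exact Finset.sum_le_sum h1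
    have h8 : S ≤ ‖w‖ * ‖x‖ := by
      have h9 : (inner ℂ w x : ℂ) = (S : ℂ) := by
        rw [hw, sum_inner, hS]
        push_cast
        refine Finset.sum_congr rfl (fun i _ => ?_)
        have h10 : (inner ℂ ((K i).starProjection x) x : ℂ) =
            inner ℂ ((K i).starProjection x) ((K i).starProjection x) := by
          have h11 : (K i).starProjection ((K i).starProjection x) = (K i).starProjection x :=
            starProjection_eq_self_iff.2 (starProjection_apply_mem _ _)
          calc (inner ℂ ((K i).starProjection x) x : ℂ)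
              = inner ℂ ((K i).starProjection ((K i).starProjection x)) x := by rw [h11]
            _ = _ := inner_starProjection_left_eq_right _ _ _
        rw [h10, inner_self_eq_norm_sq_to_K]
        norm_cast
      have h12 : S = (inner ℂ w x : ℂ).re := by rw [h9, Complex.ofReal_re]
      rw [h12]
      exact (Complex.re_le_norm _).trans (norm_inner_le_norm _ _)
    have hS0 : 0 ≤ S := Finset.sum_nonneg fun i _ => by positivity
    have h13 : S ^ 2 ≤ (n + 1) * S * ‖x‖ ^ 2 := by
      calc S ^ 2 ≤ (‖w‖ * ‖x‖) ^ 2 := pow_le_pow_left₀ hS0 h8 2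
        _ = ‖w‖ ^ 2 * ‖x‖ ^ 2 := by ring
        _ ≤ _ := mul_le_mul_of_nonneg_right h4 (sq_nonneg _)
    rcases hS0.lt_or_eq with h14 | h14
    · push_cast
      have h15 : S * S ≤ S * ((n + 1) * ‖x‖ ^ 2) := by nlinarith
      exact le_of_mul_le_mul_left h15 h14
    · rw [← h14]
      positivity

/-! ## Almost periodic parts -/

section ap

variable {L : Type*} [AddCommGroup L] {T : L → H ≃ₗᵢ[ℂ] H}

theorem T_zero (hT : ∀ a b x, T (a + b) x = T a (T b x)) (x : H) : T 0 x = x := by
  have h := hT 0 0 x
  rw [add_zero] at h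
  exact ((T 0).injective h).symm

theorem T_neg (hT : ∀ a b x, T (a + b) x = T a (T b x)) (l : L) (x : H) :
    T (-l) (T l x) = x := by
  rw [← hT, neg_add_cancel, T_zero hT]

theorem T_neg' (hT : ∀ a b x, T (a + b) x = T a (T b x)) (l : L) (x : H) :
    T l (T (-l) x) = x := by
  rw [← hT, add_neg_cancel, T_zero hT]

theorem T_comm (hT : ∀ a b x, T (a + b) x = T a (T b x)) (a b : L) (x : H) :
    T a (T b x) = T b (T a x) := by
  rw [← hT, ← hT, add_comm]

theorem inner_T (hT : ∀ a b x, T (a + b) x = T a (T b x)) (l : L) (x y : H) :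
    (inner ℂ (T l x) y : ℂ) = inner ℂ x (T (-l) y) := by
  rw [← (T (-l)).inner_map_map (T l x) y, T_neg hT]

/-- Common eigenvectors of the `T v`, `v ∈ V`. -/
def Eig (T : L → H ≃ₗᵢ[ℂ] H) (V : Set L) : Set H := {y | ∀ v ∈ V, ∃ c : ℂ, T v y = c • y}

/-- The closed span of the common eigenvectors. -/
def AP (T : L → H ≃ₗᵢ[ℂ] H) (V : Set L) : Submodule ℂ H :=
  (span ℂ (Eig T V)).topologicalClosure

theorem isClosed_AP (V : Set L) : IsClosed (AP T V : Set H) :=
  isClosed_topologicalClosure _

instance [CompleteSpace H] (V : Set L) : CompleteSpace (AP T V) :=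
  (isClosed_AP V).completeSpace_coe

instance [CompleteSpace H] (V : Set L) : (AP T V).HasOrthogonalProjection :=
  HasOrthogonalProjection.ofCompleteSpace _

theorem subset_AP (V : Set L) : Eig T V ⊆ AP T V :=
  subset_span.trans (Submodule.le_topologicalClosure _)

theorem mem_AP_orthogonal {V : Set L} {x : H} :
    x ∈ (AP T V)ᗮ ↔ ∀ y ∈ Eig T V, (inner ℂ y x : ℂ) = 0 := by
  rw [AP, orthogonal_closure, mem_orthogonal]
  constructor
  · intro h y hy
    exact h y (subset_span hy)
  · intro h u hu
    induction hu using span_induction with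
    | mem y hy => exact h y hy
    | zero => exact inner_zero_left _
    | add a b _ _ ha hb => rw [inner_add_left, ha, hb, add_zero]
    | smul c a _ ha => rw [inner_smul_left, ha, mul_zero]

/-- A continuous linear map sending the eigenvectors for `V` into a closed subspace sends the
almost periodic part into it. -/
theorem map_AP {V : Set L} {K : Submodule ℂ H} (hK : IsClosed (K : Set H)) (A : H →L[ℂ] H)
    (h : ∀ y ∈ Eig T V, A y ∈ K) {x : H} (hx : x ∈ AP T V) : A x ∈ K := by
  have h1 : span ℂ (Eig T V) ≤ K.comap (A : H →ₗ[ℂ] H) := span_le.2 fun y hy => h y hy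
  have h2 : IsClosed ((K.comap (A : H →ₗ[ℂ] H) : Submodule ℂ H) : Set H) :=
    hK.preimage A.continuous
  exact topologicalClosure_minimal _ h1 h2 hx

theorem T_mem_Eig (hT : ∀ a b x, T (a + b) x = T a (T b x)) {V : Set L} (l : L) {y : H}
    (hy : y ∈ Eig T V) : T l y ∈ Eig T V := by
  intro v hv
  obtain ⟨c, hc⟩ := hy v hv
  exact ⟨c, by rw [T_comm hT, hc, map_smul]⟩

/-- `T l` as a continuous linear map. -/
abbrev TL (T : L → H ≃ₗᵢ[ℂ] H) (l : L) : H →L[ℂ] H := (T l).toContinuousLinearEquiv

theorem T_mem_AP (hT : ∀ a b x, T (a + b) x = T a (T b x)) {V : Set L} (l : L) {x : H}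
    (hx : x ∈ AP T V) : T l x ∈ AP T V :=
  map_AP (isClosed_AP V) (TL T l) (fun _ hy => subset_AP V (T_mem_Eig hT l hy)) hx

theorem T_mem_AP_orthogonal (hT : ∀ a b x, T (a + b) x = T a (T b x)) {V : Set L} (l : L)
    {x : H} (hx : x ∈ (AP T V)ᗮ) : T l x ∈ (AP T V)ᗮ := by
  rw [mem_AP_orthogonal] at hx ⊢
  intro y hy
  have h1 := hx (T (-l) y) (T_mem_Eig hT (-l) hy)
  rw [inner_T hT, neg_neg] at h1
  exact h1

variable [CompleteSpace H]

theorem proj_T (hT : ∀ a b x, T (a + b) x = T a (T b x)) (V : Set L) (l : L) (x : H) :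
    (AP T V).starProjection (T l x) = T l ((AP T V).starProjection x) :=
  proj_conj (AP T V) (AP T V) (T l).toLinearEquiv.toLinearMap
    (fun _ hx => T_mem_AP hT l hx) (fun _ hx => T_mem_AP_orthogonal hT l hx) x

/-- The projections preserve the eigenvectors. -/
theorem proj_mem_Eig (hT : ∀ a b x, T (a + b) x = T a (T b x)) (V W : Set L) {y : H}
    (hy : y ∈ Eig T W) : (AP T V).starProjection y ∈ Eig T W := by
  intro v hv
  obtain ⟨c, hc⟩ := hy v hv
  exact ⟨c, by rw [← proj_T hT, hc, map_smul]⟩

theorem proj_mem_AP (hT : ∀ a b x, T (a + b) x = T a (T b x)) (V W : Set L) {x : H}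
    (hx : x ∈ AP T W) : (AP T V).starProjection x ∈ AP T W :=
  map_AP (isClosed_AP W) ((AP T V).starProjection)
    (fun _ hy => subset_AP W (proj_mem_Eig hT V W hy)) hx

theorem proj_mem_AP_orthogonal (hT : ∀ a b x, T (a + b) x = T a (T b x)) (V W : Set L) {x : H}
    (hx : x ∈ (AP T W)ᗮ) : (AP T V).starProjection x ∈ (AP T W)ᗮ := by
  rw [mem_AP_orthogonal] at hx ⊢
  intro y hy
  rw [← inner_starProjection_left_eq_right]
  exact hx _ (proj_mem_Eig hT V W hy)

theorem proj_comm (hT : ∀ a b x, T (a + b) x = T a (T b x)) (V W : Set L) (x : H) :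
    (AP T V).starProjection ((AP T W).starProjection x) =
      (AP T W).starProjection ((AP T V).starProjection x) :=
  (proj_conj (AP T W) (AP T W) ((AP T V).starProjection : H →ₗ[ℂ] H)
    (fun _ hx => proj_mem_AP hT V W hx) (fun _ hx => proj_mem_AP_orthogonal hT V W hx) x).symm

/-- The intersection of the almost periodic parts. -/
theorem inf_AP_le (hT : ∀ a b x, T (a + b) x = T a (T b x)) (V W : Set L) {x : H}
    (hx : x ∈ AP T V) (hx' : x ∈ AP T W) :
    x ∈ AP T {l | ∃ v ∈ V, ∃ w ∈ W, l = v + w} := by
  set U : Set L := {l | ∃ v ∈ V, ∃ w ∈ W, l = v + w} with hU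
  -- it is enough to treat the projection of an eigenvector
  have key : ∀ y ∈ Eig T V, (AP T W).starProjection y ∈ AP T U := by
    intro y hy
    -- the eigenspace of `y`
    set E : Submodule ℂ H :=
      { carrier := {z | ∀ v ∈ V, ∀ c : ℂ, T v y = c • y → T v z = c • z}
        add_mem' := by
          intro a b ha hb v hv c hc
          rw [map_add, ha v hv c hc, hb v hv c hc, smul_add]
        zero_mem' := by
          intro v hv c hc
          rw [map_zero, smul_zero]
        smul_mem' := by
          intro r a ha v hv c hc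
          rw [map_smul, ha v hv c hc, smul_comm] } with hE
    have hEc : IsClosed (E : Set H) := by
      have : (E : Set H) = ⋂ v ∈ V, ⋂ c : ℂ, ⋂ _ : T v y = c • y, {z | T v z = c • z} := by
        ext z
        simp only [Set.mem_iInter, Set.mem_ofPred_eq]
        exact Iff.rfl
      rw [this]
      refine isClosed_biInter fun v _ => isClosed_iInter fun c => isClosed_iInter fun _ => ?_
      exact isClosed_eq (T v).continuous (continuous_const_smul c)
    have : CompleteSpace E := hEc.completeSpace_coe
    have : E.HasOrthogonalProjection := HasOrthogonalProjection.ofCompleteSpace _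
    have hTE : ∀ l, ∀ z ∈ E, T l z ∈ E := by
      intro l z hz v hv c hc
      rw [T_comm hT, hz v hv c hc, map_smul]
    have hTE' : ∀ l, ∀ z ∈ Eᗮ, T l z ∈ Eᗮ := by
      intro l z hz
      rw [mem_orthogonal] at hz ⊢
      intro u hu
      have h1 := hz (T (-l) u) (hTE (-l) u hu)
      rw [inner_T hT, neg_neg] at h1
      exact h1
    have hPT : ∀ l z, E.starProjection (T l z) = T l (E.starProjection z) := fun l z =>
      proj_conj E E (T l).toLinearEquiv.toLinearMap (fun _ hx => hTE l _ hx)
        (fun _ hx => hTE' l _ hx) z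
    -- the projection of `y` lies in `E`
    have h1 : (AP T W).starProjection y ∈ E := by
      intro v hv c hc
      rw [← proj_T hT, hc, map_smul]
    have h2 : (AP T W).starProjection y = E.starProjection ((AP T W).starProjection y) :=
      (starProjection_eq_self_iff.2 h1).symm
    rw [h2]
    refine map_AP (isClosed_AP U) (E.starProjection) ?_ (starProjection_apply_mem (AP T W) y)
    intro z hz
    apply subset_AP
    rintro l ⟨v, hv, w, hw, rfl⟩
    obtain ⟨c, hc⟩ := hy v hv
    obtain ⟨c', hc'⟩ := hz w hw
    refine ⟨c * c', ?_⟩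
    have h3 : T v (E.starProjection z) = c • E.starProjection z :=
      (starProjection_apply_mem E z : E.starProjection z ∈ E) v hv c hc
    have h4 : T w (E.starProjection z) = c' • E.starProjection z := by
      rw [← hPT, hc', map_smul]
    rw [hT, h4, map_smul, h3, smul_smul, mul_comm]
  have h5 : (AP T W).starProjection x = x := starProjection_eq_self_iff.2 hx'
  rw [← h5]
  exact map_AP (isClosed_AP U) ((AP T W).starProjection) key hx

end ap

end Vale.Agent.P011.H152
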