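import Vale.Agent.P011.H152.MeanH
import Vale.Agent.P011.H152.Proj
import Vale.Agent.P011.H152.Alg

/-!
# One-step mixing (OM)

`T : L → U(H)` additive, `g b` unitary with `g b T l (g b)⁻¹ = T (s_b l)`, `s_b = x_b / x_0`,
`x_b = (σ + b)^2 - d` and `g c g b = T (e c b (b - c) / x_0) g b g c` with a constant `e ≠ 0`
(`e = 1` for the maps `g b`, `e = -1` for the maps with base point `-σ`).  For every vector `F`
orthogonal to the `T`-invariant vectors the mean over `b` of `|⟨F, g b G⟩|` vanishes.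
-/

namespace Vale.Agent.P011.H152

open Submodule

/-- Weak mixing on lines (the statement of P3a). -/
def WM (k : Type*) [Field k] (m : (k → ℝ) → ℝ) (H : Type*) [NormedAddCommGroup H]
    [InnerProductSpace ℂ H] : Prop :=
  ∀ τ : k → H ≃ₗᵢ[ℂ] H, (∀ a b x, τ (a + b) x = τ a (τ b x)) →
    ∀ x : H, (∀ y, (∀ b, ∃ c : ℂ, τ b y = c • y) → (inner ℂ y x : ℂ) = 0) →
      ∀ (z : H) (a c e : k), a ≠ 0 ∨ c ≠ 0 →
        m (fun b => ‖(inner ℂ (τ (a * b ^ 2 + c * b + e) x) z : ℂ)‖ ^ 2) = 0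

variable {k L H : Type*} [Field k] [Field L] [Algebra k L]
  [NormedAddCommGroup H] [InnerProductSpace ℂ H]

/-- The numbers `x_b`. -/
def xx (σ : L) (d b : k) : L := (σ + algebraMap k L b) ^ 2 - algebraMap k L d

/-- The data of the one-step maps, over any field with `2 ≠ 0`. -/
structure DatG (σ : L) (d e : k) (T : L → H ≃ₗᵢ[ℂ] H) (g : k → H ≃ₗᵢ[ℂ] H) : Prop where
  two : (2 : k) ≠ 0
  span : ∃ N0 : ℕ, ∀ B : Finset k, N0 ≤ B.card →
    Submodule.span k ((fun b : k => (xx σ d b)⁻¹) '' (B : Set k)) = ⊤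
  ene : e ≠ 0
  ne : ∀ b : k, xx σ d b ≠ 0
  notin : ∀ b : k, σ ≠ algebraMap k L b
  add : ∀ a b x, T (a + b) x = T a (T b x)
  conj : ∀ b l x, g b (T l x) = T (xx σ d b / xx σ d 0 * l) (g b x)
  comm : ∀ b c x, g c (g b x) =
    T (algebraMap k L (e * (c * b * (b - c))) / xx σ d 0) (g b (g c x))

namespace DatG

variable {σ : L} {d e : k} {T : L → H ≃ₗᵢ[ℂ] H} {g : k → H ≃ₗᵢ[ℂ] H}

/-- the vectors `(g b)⁻¹ F`. -/
theorem symm_T (D : DatG σ d e T g) (b : k) (l : L) (x : H) :
    T l ((g b).symm x) = (g b).symm (T (xx σ d b / xx σ d 0 * l) x) := by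
  apply (g b).injective
  rw [D.conj, LinearIsometryEquiv.apply_symm_apply, LinearIsometryEquiv.apply_symm_apply]

theorem xx_inj (D : DatG σ d e T g) {b c : k} (hbc : b ≠ c) : xx σ d b ≠ xx σ d c := by
  intro h
  have h1 : (algebraMap k L b - algebraMap k L c) *
      (2 * σ + algebraMap k L b + algebraMap k L c) = 0 := by
    have : xx σ d b - xx σ d c = 0 := sub_eq_zero.2 h
    rw [← this, xx, xx]
    ring
  rcases mul_eq_zero.1 h1 with h2 | h2
  · exact hbc ((algebraMap k L).injective (sub_eq_zero.1 h2))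
  · apply D.notin (-(b + c) / 2)
    have h2' : (2 : L) ≠ 0 := by
      have h3 := (map_ne_zero (algebraMap k L)).2 D.two
      rwa [map_ofNat] at h3
    rw [map_div₀, map_neg, map_add]
    have h3 : algebraMap k L 2 = 2 := map_ofNat _ 2
    rw [h3]
    field_simp
    linear_combination h2

/-- Sum bound for eigenvectors with nontrivial character. -/
theorem sum_eig (D : DatG σ d e T g) {y : H} (hy : y ∈ Eig T Set.univ)
    (hinv : ∀ z : H, (∀ l, T l z = z) → (inner ℂ z y : ℂ) = 0) (G : H) (s : Finset k) :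
    ∑ b ∈ s, ‖(inner ℂ y (g b G) : ℂ)‖ ^ 2 ≤ ‖G‖ ^ 2 * ‖y‖ ^ 2 := by
  classical
  by_cases hy0 : y = 0
  · simp [hy0]
  -- pairwise orthogonality
  have horth : ∀ b c : k, b ≠ c → (inner ℂ ((g b).symm y) ((g c).symm y) : ℂ) = 0 := by
    intro b c hbc
    by_contra hne
    apply hy0
    have hTy : ∀ l, T l y = y := by
      intro l0
      -- choose `l` with `(s_c - s_b) l = l0`
      set sb := xx σ d b / xx σ d 0 with hsb
      set sc := xx σ d c / xx σ d 0 with hsc
      have hs : sc - sb ≠ 0 := by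
        rw [hsb, hsc, ← sub_div]
        exact div_ne_zero (sub_ne_zero.2 (D.xx_inj hbc.symm)) (D.ne 0)
      set l := l0 / (sc - sb) with hl
      obtain ⟨χb, hb⟩ := hy (sb * l) (Set.mem_univ _)
      obtain ⟨χc, hc⟩ := hy (sc * l) (Set.mem_univ _)
      have hyn : ‖y‖ ≠ 0 := norm_ne_zero_iff.2 hy0
      have hb1 : ‖χb‖ = 1 := by
        have h1 := (T (sb * l)).norm_map y
        rw [hb, norm_smul] at h1
        exact mul_right_cancel₀ hyn (by rw [h1, one_mul])
      have hc1 : ‖χc‖ = 1 := by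
        have h1 := (T (sc * l)).norm_map y
        rw [hc, norm_smul] at h1
        exact mul_right_cancel₀ hyn (by rw [h1, one_mul])
      have h2 : (inner ℂ ((g b).symm y) ((g c).symm y) : ℂ) =
          (starRingEnd ℂ) χb * χc * inner ℂ ((g b).symm y) ((g c).symm y) := by
        conv_lhs => rw [← (T l).inner_map_map, D.symm_T, D.symm_T, ← hsb, ← hsc, hb, hc,
          map_smul, map_smul, inner_smul_left, inner_smul_right, ← mul_assoc]
      have h3 : (starRingEnd ℂ) χb * χc = 1 := by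
        have h4 : ((starRingEnd ℂ) χb * χc - 1) *
            (inner ℂ ((g b).symm y) ((g c).symm y) : ℂ) = 0 := by
          rw [sub_mul, ← h2, one_mul, sub_self]
        rcases mul_eq_zero.1 h4 with h5 | h5
        · exact sub_eq_zero.1 h5
        · exact absurd h5 hne
      have h6 : χc = χb := by
        have h7 : χb * (starRingEnd ℂ) χb = 1 := by
          rw [Complex.mul_conj, Complex.normSq_eq_norm_sq, hb1]; norm_num
        calc χc = (χb * (starRingEnd ℂ) χb) * χc := by rw [h7, one_mul]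
          _ = χb * ((starRingEnd ℂ) χb * χc) := by ring
          _ = χb := by rw [h3, mul_one]
      have h8 : T (sc * l) y = T (sb * l) y := by rw [hb, hc, h6]
      have h9 : sc * l = sb * l + l0 := by
        rw [hl]; field_simp; ring
      rw [h9, D.add] at h8
      exact (T (sb * l)).injective h8
    have h1 := hinv y hTy
    exact inner_self_eq_zero.1 h1
  have h1 := bessel_pt (ι := s) (fun i => (g (i : k)).symm y) G (M := ‖y‖) (Z := ‖G‖)
    (fun i => by rw [LinearIsometryEquiv.norm_map]) le_rfl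
  have h2 : ∑ i : s, ∑ j ∈ Finset.univ.erase i,
      ‖(inner ℂ ((g (i : k)).symm y) ((g (j : k)).symm y) : ℂ)‖ = 0 := by
    refine Finset.sum_eq_zero fun i _ => Finset.sum_eq_zero fun j hj => ?_
    rw [horth, norm_zero]
    intro h
    exact (Finset.ne_of_mem_erase hj) (Subtype.ext h.symm)
  rw [h2, mul_zero, add_zero] at h1
  have h3 : ∑ i : s, ‖(inner ℂ ((g (i : k)).symm y) G : ℂ)‖ ^ 2 =
      ∑ b ∈ s, ‖(inner ℂ y (g b G) : ℂ)‖ ^ 2 := by
    rw [← Finset.sum_coe_sort s (fun b => ‖(inner ℂ y (g b G) : ℂ)‖ ^ 2)]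
    refine Finset.sum_congr rfl fun i _ => ?_
    rw [← (g (i : k)).inner_map_map ((g (i : k)).symm y) G, LinearIsometryEquiv.apply_symm_apply]
  rw [h3] at h1
  set S := ∑ b ∈ s, ‖(inner ℂ y (g b G) : ℂ)‖ ^ 2 with hS
  have hS0 : 0 ≤ S := Finset.sum_nonneg fun _ _ => by positivity
  rcases hS0.lt_or_eq with h4 | h4
  · have h5 : S * S ≤ S * (‖G‖ ^ 2 * ‖y‖ ^ 2) := by nlinarith
    exact le_of_mul_le_mul_left h5 h4
  · rw [← h4]; positivity

section proj

variable [CompleteSpace H]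

/-- The line `k x_b⁻¹`. -/
def line (k : Type*) {L : Type*} [Field k] [Field L] [Algebra k L] (A : L) : Set L :=
  (Submodule.span k {A} : Submodule k L)

theorem mem_line {A v : L} : v ∈ line k A ↔ ∃ b : k, v = b • A := by
  rw [line, SetLike.mem_coe, mem_span_singleton]
  exact ⟨fun ⟨b, hb⟩ => ⟨b, hb.symm⟩, fun ⟨b, hb⟩ => ⟨b, hb.symm⟩⟩

theorem kill (D : DatG σ d e T g) {N0 : ℕ}
    (hN : ∀ B : Finset k, N0 ≤ B.card →
      Submodule.span k ((fun b : k => (xx σ d b)⁻¹) '' (B : Set k)) = ⊤) [DecidableEq k] :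
    ∀ (n : ℕ) (B S : Finset k) (x : H), Disjoint B S → N0 ≤ B.card + n →
      x ∈ AP T ((Submodule.span k ((fun b : k => (xx σ d b)⁻¹) '' (B : Set k)) :
        Submodule k L) : Set L) → x ∈ (AP T Set.univ)ᗮ →
      Kill (fun b y => (AP T (line k (xx σ d b)⁻¹)).starProjection y) n S x := by
  intro n
  induction n with
  | zero =>
    intro B S x _ hB hx hx'
    rw [hN B (by omega), top_coe] at hx
    show x = 0
    have h1 := mem_orthogonal _ _ |>.1 hx' x hx
    exact inner_self_eq_zero.1 h1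
  | succ n ih =>
    intro B S x hBS hB hx hx' i hi
    have hiB : i ∉ B := fun h => Finset.disjoint_left.1 hBS h hi
    refine ih (insert i B) (S.erase i) _ ?_ ?_ ?_ ?_
    · rw [Finset.disjoint_left]
      intro a ha ha'
      rcases Finset.mem_insert.1 ha with h | h
      · exact Finset.ne_of_mem_erase ha' h
      · exact Finset.disjoint_left.1 hBS h (Finset.mem_of_mem_erase ha')
    · rw [Finset.card_insert_of_notMem hiB]
      omega
    · have h1 : (AP T (line k (xx σ d i)⁻¹)).starProjection x ∈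
          AP T ((Submodule.span k ((fun b : k => (xx σ d b)⁻¹) '' (B : Set k)) :
          Submodule k L) : Set L) := proj_mem_AP D.add _ _ hx
      have h2 : (AP T (line k (xx σ d i)⁻¹)).starProjection x ∈ AP T (line k (xx σ d i)⁻¹) :=
        starProjection_apply_mem _ _
      have h3 := inf_AP_le D.add _ _ h1 h2
      have h4 : {l : L | ∃ v ∈ ((Submodule.span k ((fun b : k => (xx σ d b)⁻¹) ''
          (B : Set k)) : Submodule k L) : Set L), ∃ w ∈ line k (xx σ d i)⁻¹, l = v + w} =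
          ((Submodule.span k ((fun b : k => (xx σ d b)⁻¹) '' ((insert i B : Finset k) :
          Set k)) : Submodule k L) : Set L) := by
        rw [Finset.coe_insert, Set.image_insert_eq, span_insert, sup_comm]
        ext l
        rw [SetLike.mem_coe, mem_sup]
        constructor
        · rintro ⟨v, hv, w, hw, rfl⟩
          exact ⟨v, hv, w, hw, rfl⟩
        · rintro ⟨v, hv, w, hw, rfl⟩
          exact ⟨v, hv, w, hw, rfl⟩
      rw [h4] at h3
      exact h3
    · exact proj_mem_AP_orthogonal D.add _ _ hx'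

theorem sum_proj (D : DatG σ d e T g) : ∃ N0 : ℕ, ∀ x ∈ (AP T Set.univ)ᗮ, ∀ S : Finset k,
    ∑ b ∈ S, ‖(AP T (line k (xx σ d b)⁻¹)).starProjection x‖ ^ 2 ≤ N0 * ‖x‖ ^ 2 := by
  classical
  obtain ⟨N0, hN⟩ := D.span
  refine ⟨N0, fun x hx S => ?_⟩
  refine overlap (fun b => AP T (line k (xx σ d b)⁻¹)) (fun i j y => proj_comm D.add _ _ y)
    N0 S x ?_
  refine D.kill hN (N0 + 1) ∅ S x (Finset.disjoint_empty_left _) (by omega) ?_ hx
  apply subset_AP
  intro v hv
  rw [Finset.coe_empty, Set.image_empty, span_empty, SetLike.mem_coe, mem_bot] at hv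
  exact ⟨1, by rw [hv, T_zero D.add, one_smul]⟩

theorem proj_g (D : DatG σ d e T g) (c : k) (x : H) :
    (AP T (line k (xx σ d 0)⁻¹)).starProjection (g c x) =
      g c ((AP T (line k (xx σ d c)⁻¹)).starProjection x) := by
  have e1 : ∀ b : k, xx σ d c / xx σ d 0 * (b • (xx σ d c)⁻¹) = b • (xx σ d 0)⁻¹ := by
    intro b
    rw [mul_smul_comm]
    congr 1
    field_simp [D.ne c, D.ne 0]
  refine proj_conj (AP T (line k (xx σ d c)⁻¹)) (AP T (line k (xx σ d 0)⁻¹))
    (g c).toLinearEquiv.toLinearMap ?_ ?_ x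
  · intro y hy
    refine map_AP (isClosed_AP _) ((g c).toContinuousLinearEquiv : H →L[ℂ] H) ?_ hy
    intro z hz
    apply subset_AP
    intro v hv
    obtain ⟨b, rfl⟩ := mem_line.1 hv
    obtain ⟨χ, hχ⟩ := hz (b • (xx σ d c)⁻¹) (mem_line.2 ⟨b, rfl⟩)
    refine ⟨χ, ?_⟩
    show T (b • (xx σ d 0)⁻¹) (g c z) = χ • g c z
    rw [← e1 b, ← D.conj, hχ, map_smul]
  · intro y hy
    rw [mem_AP_orthogonal] at hy ⊢
    intro z hz
    have h1 : (g c).symm z ∈ Eig T (line k (xx σ d c)⁻¹) := by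
      intro v hv
      obtain ⟨b, rfl⟩ := mem_line.1 hv
      obtain ⟨χ, hχ⟩ := hz (b • (xx σ d 0)⁻¹) (mem_line.2 ⟨b, rfl⟩)
      exact ⟨χ, by rw [D.symm_T, e1 b, hχ, map_smul]⟩
    have h2 := hy _ h1
    rw [← (g c).inner_map_map, LinearIsometryEquiv.apply_symm_apply] at h2
    exact h2

end proj

end DatG

end Vale.Agent.P011.H152
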