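import Vale.Agent.P011.H152.OM

/-!
# One-step mixing: the part orthogonal to the eigenvectors
-/

namespace Vale.Agent.P011.H152

open Submodule

/-- A nonnegative bounded function of positive mean is large on an infinite set. -/
theorem infinite_large {G : Type*} [AddCommGroup G] [Infinite G] {m : (G → ℝ) → ℝ}
    (h : IsMean m) (hinv : ∀ (b : G) (f), Bdd f → m (fun x => f (x + b)) = m f)
    {f : G → ℝ} (hf : Bdd f) (hpos : 0 < m f) : {x | m f / 2 ≤ f x}.Infinite := by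
  classical
  intro hfin
  obtain ⟨C, hC⟩ := id hf
  have hC0 : 0 ≤ C := (abs_nonneg _).trans (hC 0)
  set S := hfin.toFinset with hS
  set I : G → ℝ := fun x => if x ∈ S then 1 else 0 with hI
  have hI0 : ∀ x, 0 ≤ I x := fun x => by
    rw [hI]; dsimp only; split_ifs <;> norm_num
  have hIb : Bdd I := ⟨1, fun x => by
    rw [hI]; dsimp only; split_ifs <;> norm_num⟩
  have h1 : m I = 0 := by
    refine IsMean.mean_zero_of_sum_le h hinv hI0 (C := S.card) (fun s => ?_)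
    rw [hI]
    dsimp only
    rw [Finset.sum_ite, Finset.sum_const_zero, add_zero, Finset.sum_const, nsmul_eq_mul, mul_one]
    have : (s.filter fun x => x ∈ S) ⊆ S := fun x hx => (Finset.mem_filter.1 hx).2
    exact_mod_cast Finset.card_le_card this
  have h2 : m f ≤ m (fun x => m f / 2 + C * I x) := by
    refine h.mono hf ((Bdd.const _).add (hIb.const_mul C)) (fun x => ?_)
    by_cases hx : x ∈ S
    · have : I x = 1 := by rw [hI]; simp [hx]
      rw [this, mul_one]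
      linarith [(le_abs_self (f x)).trans (hC x)]
    · have h3 : I x = 0 := by rw [hI]; simp [hx]
      rw [h3, mul_zero, add_zero]
      rw [hS, Set.Finite.mem_toFinset] at hx
      exact le_of_lt (not_le.1 hx)
  rw [h.add _ _ (Bdd.const _) (hIb.const_mul C), h.const, h.smul _ _ hIb, h1, mul_zero,
    add_zero] at h2
  linarith

variable {k L H : Type*} [Field k] [Infinite k] [Field L] [Algebra k L]
  [NormedAddCommGroup H] [InnerProductSpace ℂ H] [CompleteSpace H]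

namespace DatG

variable {σ : L} {d e : k} {T : L → H ≃ₗᵢ[ℂ] H} {g : k → H ≃ₗᵢ[ℂ] H} {m : (k → ℝ) → ℝ}

/-- the vector `F` has a small line-periodic part for all but finitely many `c`. -/
theorem finite_large_proj (D : DatG σ d e T g) {F : H} (hF : F ∈ (AP T Set.univ)ᗮ) {ε : ℝ}
    (hε : 0 < ε) : {c : k | ε ≤ ‖(AP T (line k (xx σ d c)⁻¹)).starProjection F‖}.Finite := by
  obtain ⟨N0, hN⟩ := D.sum_proj
  by_contra hinf
  have hinf' : {c : k | ε ≤ ‖(AP T (line k (xx σ d c)⁻¹)).starProjection F‖}.Infinite := hinf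
  obtain ⟨J, hJ⟩ := exists_nat_gt (N0 * ‖F‖ ^ 2 / ε ^ 2)
  obtain ⟨S, hS, hSc⟩ := hinf'.exists_subset_card_eq J
  have h1 := hN F hF S
  have h2 : (J : ℝ) * ε ^ 2 ≤
      ∑ b ∈ S, ‖(AP T (line k (xx σ d b)⁻¹)).starProjection F‖ ^ 2 := by
    rw [← hSc, ← nsmul_eq_mul]
    refine Finset.card_nsmul_le_sum _ _ _ (fun b hb => ?_)
    exact pow_le_pow_left₀ hε.le (hS hb) 2
  rw [div_lt_iff₀ (by positivity)] at hJ
  linarith

/-- The Gram estimate. -/
theorem gram (D : DatG σ d e T g) (h : IsMean m) (wm : WM k m H) (F : H) {i j : k} (hij : i ≠ j)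
    {ε : ℝ} (hi : ‖(AP T (line k (xx σ d i)⁻¹)).starProjection F‖ ≤ ε) :
    m (fun b => ‖(inner ℂ (T (-(algebraMap k L (e * (i * b * (b - i))) / xx σ d 0)) (g i F))
      (T (-(algebraMap k L (e * (j * b * (b - j))) / xx σ d 0)) (g j F)) : ℂ)‖) ≤ ε * ‖F‖ := by
  set A : L := (xx σ d 0)⁻¹ with hA
  set r := (AP T (line k A)).starProjection (g i F) with hr
  set y := g i F - r with hy
  have hrn : ‖r‖ ≤ ε := by
    rw [hr, hA, D.proj_g, LinearIsometryEquiv.norm_map]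
    exact hi
  set τ : k → H ≃ₗᵢ[ℂ] H := fun b => T (b • A) with hτ
  have hτadd : ∀ a b x, τ (a + b) x = τ a (τ b x) := by
    intro a b x
    rw [hτ]
    dsimp only
    rw [add_smul, D.add]
  have hyort : ∀ z, (∀ b, ∃ c : ℂ, τ b z = c • z) → (inner ℂ z y : ℂ) = 0 := by
    have h1 : y ∈ (AP T (line k A))ᗮ := sub_starProjection_mem_orthogonal _
    rw [mem_AP_orthogonal] at h1
    intro z hz
    refine h1 z (fun v hv => ?_)
    obtain ⟨b, rfl⟩ := mem_line.1 hv
    exact hz b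
  have h2 := wm τ hτadd y hyort (g j F) (e * (j - i)) (e * (i ^ 2 - j ^ 2)) 0
    (Or.inl (mul_ne_zero D.ene (sub_ne_zero.2 hij.symm)))
  have hb : Bdd (fun b => ‖(inner ℂ (τ (e * (j - i) * b ^ 2 + e * (i ^ 2 - j ^ 2) * b + 0) y)
      (g j F) : ℂ)‖) := ⟨‖y‖ * ‖F‖, fun b => by
    rw [abs_of_nonneg (norm_nonneg _)]
    refine (norm_inner_le_norm _ _).trans ?_
    rw [LinearIsometryEquiv.norm_map, LinearIsometryEquiv.norm_map]⟩
  have h3 := h.abs_eq_zero hb h2
  have h4 : ∀ b : k, ‖(inner ℂ (T (-(algebraMap k L (e * (i * b * (b - i))) / xx σ d 0)) (g i F))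
      (T (-(algebraMap k L (e * (j * b * (b - j))) / xx σ d 0)) (g j F)) : ℂ)‖ ≤ ε * ‖F‖ +
      |‖(inner ℂ (τ (e * (j - i) * b ^ 2 + e * (i ^ 2 - j ^ 2) * b + 0) y) (g j F) : ℂ)‖| := by
    intro b
    rw [← inner_T D.add, ← D.add]
    have e1 : algebraMap k L (e * (j * b * (b - j))) / xx σ d 0 +
        -(algebraMap k L (e * (i * b * (b - i))) / xx σ d 0) =
        (e * (j - i) * b ^ 2 + e * (i ^ 2 - j ^ 2) * b + 0) • A := by
      rw [Algebra.smul_def, hA, div_eq_mul_inv, div_eq_mul_inv]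
      simp only [map_mul, map_sub, map_add, map_pow, map_zero]
      ring
    rw [e1]
    have e2 : g i F = r + y := by rw [hy]; abel
    rw [e2, map_add, inner_add_left]
    refine (norm_add_le _ _).trans (add_le_add ?_ (le_abs_self _))
    refine (norm_inner_le_norm _ _).trans ?_
    rw [LinearIsometryEquiv.norm_map, LinearIsometryEquiv.norm_map]
    exact mul_le_mul_of_nonneg_right hrn (norm_nonneg _)
  have hb2 : Bdd (fun b => ‖(inner ℂ (T (-(algebraMap k L (e * (i * b * (b - i))) / xx σ d 0)) (g i F))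
      (T (-(algebraMap k L (e * (j * b * (b - j))) / xx σ d 0)) (g j F)) : ℂ)‖) :=
    ⟨‖F‖ * ‖F‖, fun b => by
      rw [abs_of_nonneg (norm_nonneg _)]
      refine (norm_inner_le_norm _ _).trans ?_
      rw [LinearIsometryEquiv.norm_map, LinearIsometryEquiv.norm_map,
        LinearIsometryEquiv.norm_map, LinearIsometryEquiv.norm_map]⟩
  refine (h.mono hb2 ((Bdd.const _).add hb.abs) h4).trans ?_
  rw [h.add _ _ (Bdd.const _) hb.abs, h.const, h3, add_zero]

/-- **One-step mixing for vectors orthogonal to all eigenvectors.** -/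
theorem mix_ortho (D : DatG σ d e T g) (h : IsMean m)
    (hinv : ∀ (b : k) (f), Bdd f → m (fun x => f (x + b)) = m f) (wm : WM k m H)
    {F : H} (hF : F ∈ (AP T Set.univ)ᗮ) (G : H) :
    m (fun b => ‖(inner ℂ F (g b G) : ℂ)‖ ^ 2) = 0 := by
  classical
  by_contra hne
  set ρ := m (fun b => ‖(inner ℂ F (g b G) : ℂ)‖ ^ 2) with hρ
  set v : k → H := fun b => (g b).symm F with hv
  have hvn : ∀ b, ‖v b‖ = ‖F‖ := fun b => LinearIsometryEquiv.norm_map _ _
  have hvb : VBdd v := ⟨‖F‖, fun b => (hvn b).le⟩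
  have hvin : ∀ b (w : H), (inner ℂ (v b) w : ℂ) = inner ℂ F (g b w) := by
    intro b w
    rw [← (g b).inner_map_map, hv]
    dsimp only
    rw [LinearIsometryEquiv.apply_symm_apply]
  have hφb : CBdd (fun b => (inner ℂ (v b) G : ℂ)) := hvb.inner_left G
  have hρ0 : 0 ≤ ρ := h.nonneg _ (by
    have := hφb.norm.sq
    simpa only [hvin] using this) (fun _ => by positivity)
  have hρpos : 0 < ρ := lt_of_le_of_ne hρ0 (Ne.symm hne)
  have hρφ : ρ = m (fun b => ‖(inner ℂ (v b) G : ℂ)‖ ^ 2) := by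
    rw [hρ]; simp only [hvin]
  obtain ⟨Y, hY⟩ := exists_vm h (u := fun b => (inner ℂ (v b) G : ℂ) • v b) (hvb.smul hφb)
  have hYw : ∀ w, (inner ℂ Y w : ℂ) =
      cm m (fun b => (starRingEnd ℂ) (inner ℂ (v b) G) * inner ℂ (v b) w) := by
    intro w
    rw [hY]
    congr 1
    funext b
    rw [inner_smul_left]
  have hYG : (inner ℂ Y G : ℂ) = (ρ : ℂ) := by
    rw [hYw, hρφ, ← cm_ofReal h]
    congr 1
    funext b
    rw [Complex.conj_mul']
    push_cast
    rfl
  have hYbound : ∀ w, ‖(inner ℂ Y w : ℂ)‖ ^ 2 ≤ ρ * m (fun b => ‖(inner ℂ (v b) w : ℂ)‖ ^ 2) := by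
    intro w
    rw [hYw]
    refine (norm_cm_mul_sq_le h hφb.conj (hvb.inner_left w)).trans ?_
    simp only [RCLike.norm_conj]
    rw [hρφ]
  have hY0 : Y ≠ 0 := by
    rintro rfl
    rw [inner_zero_left] at hYG
    exact hρpos.ne' (Complex.ofReal_eq_zero.1 hYG.symm)
  have hYn : 0 < ‖Y‖ := norm_pos_iff.2 hY0
  set κ := m (fun c => ‖(inner ℂ (v c) Y : ℂ)‖ ^ 2) with hκ
  have hκpos : 0 < κ := by
    have h1 := hYbound Y
    rw [← hκ] at h1
    have h2 : 0 < ‖(inner ℂ Y Y : ℂ)‖ ^ 2 := by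
      have : (inner ℂ Y Y : ℂ) ≠ 0 := inner_self_ne_zero.2 hY0
      positivity
    by_contra h3
    have h4 : ρ * κ ≤ 0 := mul_nonpos_of_nonneg_of_nonpos hρ0 (not_lt.1 h3)
    linarith
  have hκb : Bdd (fun c => ‖(inner ℂ (v c) Y : ℂ)‖ ^ 2) := (hvb.inner_left Y).norm.sq
  set w : k → ℝ := fun c => m (fun b => ‖(inner ℂ (v b) (v c) : ℂ)‖ ^ 2) with hw
  have hlow : ∀ c, ‖(inner ℂ (v c) Y : ℂ)‖ ^ 2 ≤ ρ * w c := by
    intro c
    have h1 := hYbound (v c)
    rwa [norm_inner_symm] at h1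
  set η := κ / (2 * ρ) with hη
  have hηpos : 0 < η := by positivity
  have hinfC : {c | κ / 2 ≤ ‖(inner ℂ (v c) Y : ℂ)‖ ^ 2}.Infinite :=
    infinite_large h hinv hκb hκpos
  have hwη : ∀ c ∈ {c | κ / 2 ≤ ‖(inner ℂ (v c) Y : ℂ)‖ ^ 2}, η ≤ w c := by
    intro c hc
    have h1 : κ / 2 ≤ ρ * w c := le_trans hc (hlow c)
    rw [hη, div_le_iff₀ (by positivity)]
    linarith
  -- parameters
  obtain ⟨J, hJ⟩ := exists_nat_gt ((‖F‖ ^ 4 + 1) / η)
  have hJη : ‖F‖ ^ 4 + 1 < J * η := by rwa [div_lt_iff₀ hηpos] at hJ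
  have hJpos : (0 : ℝ) < J := by
    have : 0 < (J : ℝ) * η := lt_trans (by positivity) hJη
    exact (pos_iff_pos_of_mul_pos this).2 hηpos
  set ε := η / (2 * J * (‖F‖ ^ 7 + 1)) with hε
  have hεpos : 0 < ε := by positivity
  have hfin := D.finite_large_proj hF hεpos
  obtain ⟨t, ht, htc⟩ := (hinfC.sdiff hfin).exists_subset_card_eq J
  -- the families
  set u : t → k → H := fun i b =>
    T (-(algebraMap k L (e * ((i : k) * b * (b - i))) / xx σ d 0)) (g (i : k) F) with hu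
  have hbes := mean_bessel h (ι := t) u (fun b => g b F) (M := ‖F‖) (Z := ‖F‖)
    (fun i b => by rw [hu]; dsimp only; rw [LinearIsometryEquiv.norm_map,
      LinearIsometryEquiv.norm_map]) (fun b => by rw [LinearIsometryEquiv.norm_map])
  have hui : ∀ (i : t) b, ‖(inner ℂ (u i b) (g b F) : ℂ)‖ = ‖(inner ℂ (v b) (v i) : ℂ)‖ := by
    intro i b
    rw [hvin b (v i), ← (g (i : k)).inner_map_map F, D.comm]
    have e1 : g (i : k) (v i) = F := by
      rw [hv]; exact LinearIsometryEquiv.apply_symm_apply _ _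
    rw [e1, hu]
    dsimp only
    rw [inner_T D.add, neg_neg]
  set P := ∑ i : t, m (fun b => ‖(inner ℂ (u i b) (g b F) : ℂ)‖ ^ 2) with hP
  have hPlow : (J : ℝ) * η ≤ P := by
    rw [hP]
    have h1 : ∀ i : t, η ≤ m (fun b => ‖(inner ℂ (u i b) (g b F) : ℂ)‖ ^ 2) := by
      intro i
      simp only [hui]
      exact hwη i (ht i.2).1
    calc (J : ℝ) * η = ∑ _i : t, η := by
          rw [Finset.sum_const, Finset.card_univ, Fintype.card_coe, htc, nsmul_eq_mul]
      _ ≤ _ := Finset.sum_le_sum fun i _ => h1 i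
  have hgram : ∑ i : t, ∑ j ∈ Finset.univ.erase i, m (fun b => ‖(inner ℂ (u i b) (u j b) : ℂ)‖) ≤
      J * (J * (ε * ‖F‖)) := by
    have h0 : 0 ≤ ε * ‖F‖ := by positivity
    have h1 : ∀ i : t, ∑ j ∈ Finset.univ.erase i, m (fun b => ‖(inner ℂ (u i b) (u j b) : ℂ)‖) ≤
        J * (ε * ‖F‖) := by
      intro i
      have h2 : ∀ j ∈ Finset.univ.erase i, m (fun b => ‖(inner ℂ (u i b) (u j b) : ℂ)‖) ≤
          ε * ‖F‖ := by
        intro j hj
        have hij : (i : k) ≠ j := fun h => (Finset.ne_of_mem_erase hj) (Subtype.ext h.symm)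
        exact D.gram h wm F hij (le_of_lt (not_le.1 (ht i.2).2))
      refine (Finset.sum_le_sum h2).trans ?_
      rw [Finset.sum_const, nsmul_eq_mul]
      refine mul_le_mul_of_nonneg_right ?_ h0
      have h3 : (Finset.univ.erase i).card ≤ J := by
        rw [← htc, ← Fintype.card_coe t]
        exact Finset.card_le_univ _
      exact_mod_cast h3
    refine (Finset.sum_le_sum fun i _ => h1 i).trans ?_
    rw [Finset.sum_const, Finset.card_univ, Fintype.card_coe, htc, nsmul_eq_mul]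
  have hfinal : ‖F‖ ^ 4 * ‖F‖ ^ 2 * (J * (J * (ε * ‖F‖))) ≤ J * η / 2 := by
    have e1 : ‖F‖ ^ 4 * ‖F‖ ^ 2 * (J * (J * (ε * ‖F‖))) =
        (J * η / 2) * (‖F‖ ^ 7 / (‖F‖ ^ 7 + 1)) := by
      rw [hε]
      have : (‖F‖ ^ 7 + 1) ≠ 0 := by positivity
      field_simp
    rw [e1]
    have h2 : ‖F‖ ^ 7 / (‖F‖ ^ 7 + 1) ≤ 1 := by
      rw [div_le_one (by positivity)]
      linarith
    have h3 : 0 ≤ J * η / 2 := by positivity
    nlinarith
  have h5 : ‖F‖ ^ 4 * ‖F‖ ^ 2 * ∑ i : t, ∑ j ∈ Finset.univ.erase i,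
      m (fun b => ‖(inner ℂ (u i b) (u j b) : ℂ)‖) ≤ J * η / 2 :=
    (mul_le_mul_of_nonneg_left hgram (by positivity)).trans hfinal
  have h6 : P ^ 2 ≤ ‖F‖ ^ 4 * P + J * η / 2 := by
    have e : ‖F‖ ^ 2 * ‖F‖ ^ 2 = ‖F‖ ^ 4 := by ring
    rw [e] at hbes
    linarith
  nlinarith [hPlow, hJη, sq_nonneg P]

end DatG

end Vale.Agent.P011.H152
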