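import Vale.Agent.P011.H152.OM2
import Vale.Agent.P011.H722.MeanDef

/-!
# One-step mixing: final form
-/

namespace Vale.Agent.P011.H152

open Submodule Filter Topology

variable {k L H : Type*} [Field k] [Infinite k] [Field L] [Algebra k L]
  [NormedAddCommGroup H] [InnerProductSpace ℂ H]

theorem bdd_coef (g : k → H ≃ₗᵢ[ℂ] H) (F G : H) :
    Bdd (fun b => ‖(inner ℂ F (g b G) : ℂ)‖) := ⟨‖F‖ * ‖G‖, fun b => by
  rw [abs_of_nonneg (norm_nonneg _)]
  refine (norm_inner_le_norm _ _).trans ?_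
  rw [LinearIsometryEquiv.norm_map]⟩

/-- The vectors with vanishing mean coefficients form a subspace. -/
def mixSub {m : (k → ℝ) → ℝ} (h : IsMean m) (g : k → H ≃ₗᵢ[ℂ] H) : Submodule ℂ H where
  carrier := {F | ∀ G, m (fun b => ‖(inner ℂ F (g b G) : ℂ)‖) = 0}
  add_mem' := by
    intro F F' hF hF' G
    have h1 : m (fun b => ‖(inner ℂ (F + F') (g b G) : ℂ)‖) ≤ 0 := by
      have h2 := h.mono (bdd_coef g (F + F') G) ((bdd_coef g F G).add (bdd_coef g F' G))
        (fun b => by rw [inner_add_left]; exact norm_add_le _ _)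
      rw [h.add _ _ (bdd_coef g F G) (bdd_coef g F' G), hF G, hF' G, add_zero] at h2
      exact h2
    exact le_antisymm h1 (h.nonneg _ (bdd_coef g _ G) fun _ => norm_nonneg _)
  zero_mem' := by
    intro G
    simp only [inner_zero_left, norm_zero]
    exact h.zero
  smul_mem' := by
    intro c F hF G
    have e : (fun b => ‖(inner ℂ (c • F) (g b G) : ℂ)‖) =
        fun b => ‖c‖ * ‖(inner ℂ F (g b G) : ℂ)‖ := by
      funext b
      rw [inner_smul_left, norm_mul, RCLike.norm_conj]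
    rw [e, h.smul _ _ (bdd_coef g F G), hF G, mul_zero]

theorem isClosed_mixSub {m : (k → ℝ) → ℝ} (h : IsMean m) (g : k → H ≃ₗᵢ[ℂ] H) :
    IsClosed (mixSub h g : Set H) := by
  rw [← closure_subset_iff_isClosed]
  intro F hF G
  refine le_antisymm ?_ (h.nonneg _ (bdd_coef g _ G) fun _ => norm_nonneg _)
  refine le_of_forall_pos_le_add fun ε hε => ?_
  rw [zero_add]
  rw [Metric.mem_closure_iff] at hF
  obtain ⟨F', hF', hd⟩ := hF (ε / (‖G‖ + 1)) (by positivity)
  rw [dist_eq_norm] at hd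
  have h2 := h.mono (bdd_coef g F G) ((Bdd.const (ε : ℝ)).add (bdd_coef g F' G))
    (fun b => by
      have e1 : F = (F - F') + F' := by abel
      conv_lhs => rw [e1, inner_add_left]
      refine (norm_add_le _ _).trans (add_le_add ?_ le_rfl)
      refine (norm_inner_le_norm _ _).trans ?_
      rw [LinearIsometryEquiv.norm_map]
      calc ‖F - F'‖ * ‖G‖ ≤ ε / (‖G‖ + 1) * ‖G‖ :=
            mul_le_mul_of_nonneg_right hd.le (norm_nonneg _)
        _ = ε * (‖G‖ / (‖G‖ + 1)) := by ring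
        _ ≤ ε * 1 := by
            refine mul_le_mul_of_nonneg_left ?_ hε.le
            rw [div_le_one (by positivity)]
            linarith
        _ = ε := mul_one ε)
  rw [h.add _ _ (Bdd.const _) (bdd_coef g F' G), h.const] at h2
  have h3 : m (fun b => ‖(inner ℂ F' (g b G) : ℂ)‖) = 0 := hF' G
  rw [h3, add_zero] at h2
  exact h2

namespace DatG

variable [CompleteSpace H]
variable {σ : L} {d e : k} {T : L → H ≃ₗᵢ[ℂ] H} {g : k → H ≃ₗᵢ[ℂ] H} {m : (k → ℝ) → ℝ}

/-- The subspace of invariant vectors. -/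
def Inv (T : L → H ≃ₗᵢ[ℂ] H) : Submodule ℂ H where
  carrier := {y | ∀ l, T l y = y}
  add_mem' := by
    intro a b ha hb l
    rw [map_add, ha l, hb l]
  zero_mem' := fun l => map_zero _
  smul_mem' := by
    intro c a ha l
    rw [map_smul, ha l]

omit [Field L] [CompleteSpace H] in
theorem isClosed_Inv (T : L → H ≃ₗᵢ[ℂ] H) : IsClosed (Inv T : Set H) := by
  have : (Inv T : Set H) = ⋂ l, {y | T l y = y} := by
    ext y
    rw [Set.mem_iInter]
    exact Iff.rfl
  rw [this]
  exact isClosed_iInter fun l => isClosed_eq (T l).continuous continuous_id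

/-- **One-step mixing (OM).** -/
theorem om (D : DatG σ d e T g) (h : IsMean m)
    (hinv : ∀ (b : k) (f), Bdd f → m (fun x => f (x + b)) = m f) (wm : WM k m H)
    {F : H} (hF : ∀ y, (∀ l, T l y = y) → (inner ℂ y F : ℂ) = 0) (G : H) :
    m (fun b => ‖(inner ℂ F (g b G) : ℂ)‖) = 0 := by
  -- the orthogonal complement of the invariants
  have hIc : CompleteSpace (Inv T) := (isClosed_Inv T).completeSpace_coe
  have hIp : (Inv T).HasOrthogonalProjection := HasOrthogonalProjection.ofCompleteSpace _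
  have hTI : ∀ l, ∀ x ∈ Inv T, T l x ∈ Inv T := by
    intro l x hx l'
    rw [hx l, hx l']
  have hTI' : ∀ l, ∀ x ∈ (Inv T)ᗮ, T l x ∈ (Inv T)ᗮ := by
    intro l x hx
    rw [mem_orthogonal] at hx ⊢
    intro u hu
    have h1 := hx (T (-l) u) (hTI _ u hu)
    rw [inner_T D.add, neg_neg] at h1
    exact h1
  set Q : H →L[ℂ] H := (Inv T)ᗮ.starProjection with hQ
  have hQT : ∀ l x, Q (T l x) = T l (Q x) := by
    intro l x
    refine proj_conj (Inv T)ᗮ (Inv T)ᗮ (T l).toLinearEquiv.toLinearMap (hTI' l) ?_ x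
    intro y hy
    rw [orthogonal_orthogonal] at hy ⊢
    exact hTI l y hy
  -- the almost periodic part
  set F₁ := (AP T Set.univ).starProjection F with hF₁
  have hF₁m : F₁ ∈ AP T Set.univ := starProjection_apply_mem _ _
  have hF₂m : F - F₁ ∈ (AP T Set.univ)ᗮ := sub_starProjection_mem_orthogonal _
  have hF₁I : F₁ ∈ (Inv T)ᗮ := by
    rw [mem_orthogonal]
    intro y hy
    have h1 : y ∈ AP T Set.univ := subset_AP _ fun l _ => ⟨1, by rw [hy l, one_smul]⟩
    have h2 : (inner ℂ y (F - F₁) : ℂ) = 0 := mem_orthogonal _ _ |>.1 hF₂m y h1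
    rw [inner_sub_right, hF y hy, zero_sub, neg_eq_zero] at h2
    exact h2
  have hmem₁ : F₁ ∈ mixSub h g := by
    have e1 : Q F₁ = F₁ := starProjection_eq_self_iff.2 hF₁I
    rw [← e1]
    refine map_AP (isClosed_mixSub h g) Q ?_ hF₁m
    intro y hy G
    have hQy : Q y ∈ Eig T Set.univ := by
      intro l _
      obtain ⟨c, hc⟩ := hy l (Set.mem_univ _)
      exact ⟨c, by rw [← hQT, hc, map_smul]⟩
    have hQI : Q y ∈ (Inv T)ᗮ := starProjection_apply_mem _ _
    have h1 : m (fun b => ‖(inner ℂ (Q y) (g b G) : ℂ)‖ ^ 2) = 0 :=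
      IsMean.mean_zero_of_sum_le h hinv (fun b => by positivity)
        (fun s => D.sum_eig hQy (fun z hz => mem_orthogonal _ _ |>.1 hQI z hz) G s)
    have h2 := h.abs_eq_zero (bdd_coef g (Q y) G) h1
    simpa only [abs_norm] using h2
  have hmem₂ : F - F₁ ∈ mixSub h g := by
    intro G
    have h2 := h.abs_eq_zero (bdd_coef g (F - F₁) G) (D.mix_ortho h hinv wm hF₂m G)
    simpa only [abs_norm] using h2
  have h3 : F₁ + (F - F₁) ∈ mixSub h g := (mixSub h g).add_mem hmem₁ hmem₂
  rw [add_sub_cancel] at h3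
  exact h3 G

end DatG

/-! ## Conversion to the letters of `H722` -/

theorem isMean_of {X : Type*} {m : (X → ℝ) → ℝ} (h : H722.IsMean m) : IsMean m :=
  ⟨h.add, h.smul, fun f hf h0 => h.nonneg f hf h0, h.one⟩

/-- A bounded nonnegative function of mean zero tends to zero along every filter containing the
complements of the null sets. -/
theorem tendsto_of_mean_zero {X : Type*} {m : (X → ℝ) → ℝ} (h : IsMean m) {f : X → ℝ}
    (hf : Bdd f) (hf0 : ∀ x, 0 ≤ f x) (hm : m f = 0) (p : Filter X)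
    (hp : ∀ N : Set X, m (N.indicator 1) = 0 → Nᶜ ∈ p) : Tendsto f p (𝓝 0) := by
  rw [Metric.tendsto_nhds]
  intro ε hε
  set N : Set X := {x | ε ≤ f x} with hN
  have hI : Bdd (N.indicator (1 : X → ℝ)) := ⟨1, fun x => by
    by_cases hx : x ∈ N <;> simp [hx]⟩
  have h1 : m (N.indicator 1) = 0 := by
    have h2 := h.mono (hI.const_mul ε) hf (fun x => by
      by_cases hx : x ∈ N
      · simp only [Set.indicator_of_mem hx, Pi.one_apply, mul_one]
        exact hx
      · simp only [Set.indicator_of_notMem hx, mul_zero]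
        exact hf0 x)
    rw [h.smul _ _ hI, hm] at h2
    have h3 := h.nonneg _ hI (fun x => by
      by_cases hx : x ∈ N <;> simp [hx])
    nlinarith
  refine mem_of_superset (hp N h1) (fun x hx => ?_)
  show dist (f x) 0 < ε
  rw [Real.dist_eq, sub_zero, abs_of_nonneg (hf0 x)]
  exact not_le.1 hx

/-- One-step mixing along a filter. -/
theorem DatG.om_tendsto [CompleteSpace H] {σ : L} {d e : k}
    {T : L → H ≃ₗᵢ[ℂ] H} {g : k → H ≃ₗᵢ[ℂ] H} {m : (k → ℝ) → ℝ} (D : DatG σ d e T g)
    (h : IsMean m) (hinv : ∀ (b : k) (f), Bdd f → m (fun x => f (x + b)) = m f)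
    (wm : WM k m H) (p : Filter k) (hp : ∀ N : Set k, m (N.indicator 1) = 0 → Nᶜ ∈ p)
    {F : H} (hF : ∀ y, (∀ l, T l y = y) → (inner ℂ y F : ℂ) = 0) (G : H) :
    Tendsto (fun b => (inner ℂ F (g b G) : ℂ)) p (𝓝 0) := by
  rw [tendsto_zero_iff_norm_tendsto_zero]
  exact tendsto_of_mean_zero h (bdd_coef g F G) (fun _ => norm_nonneg _)
    (D.om h hinv wm hF G) p hp

end Vale.Agent.P011.H152
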