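import Vale.Agent.P011.H152.OM3
import Vale.Agent.P011.H219.P3a

/-!
# One-step mixing, unconditional form (module P3 of the pair route)
-/

namespace Vale.Agent.P011.H152

open Submodule Filter Topology

/-- P3a (helper219) gives weak mixing on lines. -/
theorem wm_of_mean {k : Type*} [Field k] [Infinite k] (h2 : (2 : k) ≠ 0) {m : (k → ℝ) → ℝ}
    (h : H722.IsMean m) (hinv : ∀ (b : k) (f), H722.Bdd f → m (fun x => f (x + b)) = m f)
    (H : Type*) [NormedAddCommGroup H] [InnerProductSpace ℂ H] [CompleteSpace H] :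
    WM k m H := by
  intro τ hτ x hx z a c e hac
  exact H219.mean_quadratic h2 ⟨h.add, h.smul, fun f hf h0 => h.nonneg f hf h0, h.one⟩
    hinv hτ hx z a c e hac

section general

variable {k L H : Type*} [Field k] [Infinite k] [Field L] [Algebra k L]
  [NormedAddCommGroup H] [InnerProductSpace ℂ H] [CompleteSpace H]
  {σ : L} {d e : k} {T : L → H ≃ₗᵢ[ℂ] H} {g : k → H ≃ₗᵢ[ℂ] H} {m : (k → ℝ) → ℝ}

/-- **One-step mixing**, any infinite field `k` with `2 ≠ 0` (`DatG` contains the hypothesis that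
any `N0` distinct `x_b⁻¹` span `L` over `k`). -/
theorem omG_mean (D : DatG σ d e T g) (h : H722.IsMean m)
    (hinv : ∀ (b : k) (f), H722.Bdd f → m (fun x => f (x + b)) = m f)
    {F : H} (hF : ∀ y, (∀ l, T l y = y) → (inner ℂ y F : ℂ) = 0) (G : H) :
    m (fun b => ‖(inner ℂ F (g b G) : ℂ)‖) = 0 :=
  D.om (isMean_of h) hinv (wm_of_mean D.two h hinv H) hF G

/-- **One-step mixing along a filter**, any infinite field `k` with `2 ≠ 0`. -/
theorem omG_filter (D : DatG σ d e T g) (h : H722.IsMean m)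
    (hinv : ∀ (b : k) (f), H722.Bdd f → m (fun x => f (x + b)) = m f)
    (p : Filter k) (hp : ∀ N : Set k, m (N.indicator 1) = 0 → Nᶜ ∈ p)
    {F : H} (hF : ∀ y, (∀ l, T l y = y) → (inner ℂ y F : ℂ) = 0) (G : H) :
    Tendsto (fun b => (inner ℂ F (g b G) : ℂ)) p (𝓝 0) :=
  D.om_tendsto (isMean_of h) hinv (wm_of_mean D.two h hinv H) p hp hF G

end general

variable {k L H : Type*} [Field k] [CharZero k] [Field L] [Algebra k L] [FiniteDimensional k L]
  [NormedAddCommGroup H] [InnerProductSpace ℂ H] [CompleteSpace H]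
  {σ : L} {d e : k} {T : L → H ≃ₗᵢ[ℂ] H} {g : k → H ≃ₗᵢ[ℂ] H} {m : (k → ℝ) → ℝ}

/-- The data of the one-step maps in characteristic zero. -/
structure Dat (σ : L) (d e : k) (T : L → H ≃ₗᵢ[ℂ] H) (g : k → H ≃ₗᵢ[ℂ] H) : Prop where
  gen : Algebra.adjoin k {σ} = ⊤
  ene : e ≠ 0
  ne : ∀ b : k, xx σ d b ≠ 0
  notin : ∀ b : k, σ ≠ algebraMap k L b
  add : ∀ a b x, T (a + b) x = T a (T b x)
  conj : ∀ b l x, g b (T l x) = T (xx σ d b / xx σ d 0 * l) (g b x)
  comm : ∀ b c x, g c (g b x) =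
    T (algebraMap k L (e * (c * b * (b - c))) / xx σ d 0) (g b (g c x))

theorem Dat.toG (D : Dat σ d e T g) : DatG σ d e T g where
  two := two_ne_zero
  span := span_inv σ d D.gen D.ne
  ene := D.ene
  ne := D.ne
  notin := D.notin
  add := D.add
  conj := D.conj
  comm := D.comm

/-- **One-step mixing.**  `m` a translation invariant mean on `k`; `T : L → U(H)` additive,
`g b T l = T (s_b l) g b`, `g c g b = T (e c b (b - c) / x_0) g b g c`.  If `F` is orthogonal to
the `T`-invariant vectors, then the mean of `|⟨F, g b G⟩|` is `0`. -/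
theorem om_mean (D : Dat σ d e T g) (h : H722.IsMean m)
    (hinv : ∀ (b : k) (f), H722.Bdd f → m (fun x => f (x + b)) = m f)
    {F : H} (hF : ∀ y, (∀ l, T l y = y) → (inner ℂ y F : ℂ) = 0) (G : H) :
    m (fun b => ‖(inner ℂ F (g b G) : ℂ)‖) = 0 :=
  omG_mean D.toG h hinv hF G

/-- **One-step mixing along a filter containing no null set.** -/
theorem om_filter (D : Dat σ d e T g) (h : H722.IsMean m)
    (hinv : ∀ (b : k) (f), H722.Bdd f → m (fun x => f (x + b)) = m f)
    (p : Filter k) (hp : ∀ N : Set k, m (N.indicator 1) = 0 → Nᶜ ∈ p)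
    {F : H} (hF : ∀ y, (∀ l, T l y = y) → (inner ℂ y F : ℂ) = 0) (G : H) :
    Tendsto (fun b => (inner ℂ F (g b G) : ℂ)) p (𝓝 0) :=
  omG_filter D.toG h hinv p hp hF G

end Vale.Agent.P011.H152
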