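import Vale.Agent.P011.H966.Mob
import Vale.Agent.P011.H544.SInt
import Vale.Agent.P011.H271.KSF
import Vale.Agent.P011.H74.BCR

/-!
# Units are open and the inverse is continuous in `E = R ⊗ A` (module M2 of P9)
-/

open Module

namespace Vale.Agent.P011.H152

open H966 (UTop)

/-- In a monoid with zero the inverse of a unit is determined by one equation. -/
theorem inverse_eq {E : Type*} [MonoidWithZero E] {x z : E} (hx : IsUnit x) (h : x * z = 1) :
    Ring.inverse x = z := by
  calc Ring.inverse x = Ring.inverse x * (x * z) := by rw [h, mul_one]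
    _ = z := by rw [← mul_assoc, Ring.inverse_mul_cancel x hx, one_mul]

/-- Fields with continuous inverse. -/
theorem uTop_field (F : Type*) [Field F] [TopologicalSpace F] [T1Space F]
    [ContinuousInv₀ F] : UTop F := by
  have h1 : {x : F | IsUnit x} = {0}ᶜ := by
    ext x
    simp [isUnit_iff_ne_zero]
  refine ⟨?_, ?_⟩
  · rw [h1]
    exact isOpen_compl_singleton
  · rw [h1, Ring.inverse_eq_inv']
    exact continuousOn_inv₀

/-- Finite products. -/
theorem uTop_pi {ι : Type*} [Finite ι] {F : ι → Type*} [∀ i, Ring (F i)]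
    [∀ i, TopologicalSpace (F i)] (h : ∀ i, UTop (F i)) : UTop (∀ i, F i) := by
  have h1 : {x : ∀ i, F i | IsUnit x} = Set.pi Set.univ fun i => {x : F i | IsUnit x} := by
    ext x
    simp [Pi.isUnit_iff]
  refine ⟨?_, ?_⟩
  · rw [h1]
    exact isOpen_set_pi Set.finite_univ fun i _ => (h i).op
  · rw [continuousOn_pi]
    intro i
    have h2 : Set.EqOn (fun x : ∀ i, F i => (Ring.inverse x) i)
        (fun x => Ring.inverse (x i)) {x | IsUnit x} := by
      intro x hx
      have hx' : IsUnit (x i) := Pi.isUnit_iff.1 hx i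
      refine (inverse_eq hx' ?_).symm
      have h3 := congrFun (Ring.mul_inverse_cancel x hx) i
      exact h3
    refine ContinuousOn.congr ?_ h2
    exact (h i).inv.comp (continuous_apply i).continuousOn fun x hx => Pi.isUnit_iff.1 hx i

/-- Products of two rings. -/
theorem uTop_prod {R S : Type*} [Ring R] [Ring S] [TopologicalSpace R] [TopologicalSpace S]
    (hR : UTop R) (hS : UTop S) : UTop (R × S) := by
  have h1 : {x : R × S | IsUnit x} = {x : R | IsUnit x} ×ˢ {x : S | IsUnit x} := by
    ext x
    simp [Prod.isUnit_iff]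
  have h0 : ∀ x : R × S, IsUnit x → IsUnit x.1 ∧ IsUnit x.2 := fun x hx => Prod.isUnit_iff.1 hx
  refine ⟨?_, ?_⟩
  · rw [h1]
    exact hR.op.prod hS.op
  · have h2 : Set.EqOn (Ring.inverse : R × S → R × S)
        (fun x => (Ring.inverse x.1, Ring.inverse x.2)) {x | IsUnit x} := by
      intro x hx
      refine inverse_eq hx ?_
      exact Prod.ext (Ring.mul_inverse_cancel _ (h0 x hx).1)
        (Ring.mul_inverse_cancel _ (h0 x hx).2)
    refine ContinuousOn.congr ?_ h2
    exact (hR.inv.comp continuous_fst.continuousOn fun x hx => (h0 x hx).1).prodMk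
      (hS.inv.comp continuous_snd.continuousOn fun x hx => (h0 x hx).2)

section coord

variable {R E ι : Type*} [CommRing R] [TopologicalSpace R] [Ring E]
  [TopologicalSpace E] [Algebra R E] [Fintype ι] [DecidableEq ι]

/-- The matrix of left multiplication. -/
def mat (φ : E ≃L[R] (ι → R)) (x : E) : Matrix ι ι R :=
  fun i j => φ (x * φ.symm (Pi.single j 1)) i

theorem mat_mulVec (φ : E ≃L[R] (ι → R)) (x : E) (v : ι → R) :
    (mat φ x).mulVec v = φ (x * φ.symm v) := by
  have h1 : φ.symm v = ∑ j, v j • φ.symm (Pi.single j 1) := by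
    conv_lhs => rw [pi_eq_sum_univ v, map_sum]
    refine Finset.sum_congr rfl fun j _ => ?_
    rw [map_smul]
    congr 2
    funext l
    rw [Pi.single_apply]
    simp only [eq_comm]
  funext i
  rw [h1, Finset.mul_sum, map_sum, Finset.sum_apply]
  rw [Matrix.mulVec, dotProduct]
  refine Finset.sum_congr rfl fun j _ => ?_
  rw [mul_smul_comm, map_smul, Pi.smul_apply, smul_eq_mul, mul_comm]
  rfl

theorem mat_mul (φ : E ≃L[R] (ι → R)) (x y : E) : mat φ (x * y) = mat φ x * mat φ y := by
  refine Matrix.ext_of_mulVec_single fun j => ?_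
  rw [← Matrix.mulVec_mulVec, mat_mulVec, mat_mulVec, mat_mulVec,
    ContinuousLinearEquiv.symm_apply_apply, mul_assoc]

theorem mat_one (φ : E ≃L[R] (ι → R)) : mat φ (1 : E) = 1 := by
  refine Matrix.ext_of_mulVec_single fun j => ?_
  rw [mat_mulVec, one_mul, ContinuousLinearEquiv.apply_symm_apply, Matrix.one_mulVec]

theorem mulVec_inj {M : Matrix ι ι R} (h : IsUnit M.det) {u v : ι → R}
    (huv : M.mulVec u = M.mulVec v) : u = v := by
  have h1 : (M⁻¹ * M).mulVec u = (M⁻¹ * M).mulVec v := by
    rw [← Matrix.mulVec_mulVec, ← Matrix.mulVec_mulVec, huv]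
  rwa [Matrix.nonsing_inv_mul _ h, Matrix.one_mulVec, Matrix.one_mulVec] at h1

/-- The candidate inverse. -/
noncomputable def cinv (φ : E ≃L[R] (ι → R)) (x : E) : E :=
  φ.symm (Ring.inverse (mat φ x).det • (mat φ x).adjugate.mulVec (φ 1))

theorem mul_cinv (φ : E ≃L[R] (ι → R)) {x : E} (hx : IsUnit (mat φ x).det) :
    x * cinv φ x = 1 := by
  apply φ.injective
  rw [cinv, ← mat_mulVec, Matrix.mulVec_smul, Matrix.mulVec_mulVec,
    Matrix.mul_adjugate, Matrix.smul_mulVec, Matrix.one_mulVec, smul_smul,
    Ring.inverse_mul_cancel _ hx, one_smul]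

theorem isUnit_iff_mat (φ : E ≃L[R] (ι → R)) (x : E) : IsUnit x ↔ IsUnit (mat φ x).det := by
  constructor
  · rintro ⟨u, rfl⟩
    have h1 : mat φ (u : E) * mat φ ((u⁻¹ : Eˣ) : E) = 1 := by
      rw [← mat_mul, Units.mul_inv, mat_one]
    have h2 := congrArg Matrix.det h1
    rw [Matrix.det_mul, Matrix.det_one] at h2
    exact IsUnit.of_mul_eq_one _ h2
  · intro hx
    have h1 := mul_cinv φ hx
    have h3 : cinv φ x * x = 1 := by
      have h4 : φ (cinv φ x * x) = φ 1 := by
        apply mulVec_inj hx
        rw [mat_mulVec, mat_mulVec, ContinuousLinearEquiv.symm_apply_apply,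
          ContinuousLinearEquiv.symm_apply_apply, ← mul_assoc, h1, one_mul, mul_one]
      exact φ.injective h4
    exact ⟨⟨x, cinv φ x, h1, h3⟩, rfl⟩

variable [IsTopologicalRing R] [IsTopologicalRing E]

theorem continuous_mat (φ : E ≃L[R] (ι → R)) : Continuous (mat φ) :=
  continuous_matrix fun i _ =>
    (continuous_apply i).comp (φ.continuous.comp (continuous_id.mul continuous_const))

theorem continuousOn_cinv (φ : E ≃L[R] (ι → R)) (hR : UTop R) :
    ContinuousOn (cinv φ) {x | IsUnit x} := by
  have hdet : Continuous fun x => (mat φ x).det := (continuous_mat φ).matrix_det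
  have h1 : ContinuousOn (fun x => Ring.inverse (mat φ x).det) {x | IsUnit x} :=
    hR.inv.comp hdet.continuousOn fun x hx => (isUnit_iff_mat φ x).1 hx
  have h2 : Continuous fun x => (mat φ x).adjugate.mulVec (φ 1) :=
    (continuous_mat φ).matrix_adjugate.matrix_mulVec continuous_const
  have h3 : ContinuousOn (fun x => Ring.inverse (mat φ x).det •
      (mat φ x).adjugate.mulVec (φ 1)) {x | IsUnit x} := h1.smul h2.continuousOn
  exact φ.symm.continuous.comp_continuousOn h3

/-- **Units of a topological algebra which is finite free over `R` are open, and the inverse is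
continuous.** -/
theorem uTop_of_coord (φ : E ≃L[R] (ι → R)) (hR : UTop R) : UTop E := by
  have hset : {x : E | IsUnit x} = (fun x => (mat φ x).det) ⁻¹' {r : R | IsUnit r} := by
    ext x
    exact isUnit_iff_mat φ x
  refine ⟨?_, ?_⟩
  · rw [hset]
    exact hR.op.preimage (continuous_mat φ).matrix_det
  · refine ContinuousOn.congr (continuousOn_cinv φ hR) fun x hx => ?_
    exact inverse_eq hx (mul_cinv φ ((isUnit_iff_mat φ x).1 hx))

end coord

/-- `k_S`, number fields. -/
theorem uTop_KS (k : Type) [Field k] [NumberField k]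
    (S : Finset (IsDedekindDomain.HeightOneSpectrum (NumberField.RingOfIntegers k))) :
    UTop (H544.KS k S) :=
  uTop_prod (uTop_pi fun _ => uTop_field _) (uTop_pi fun _ => uTop_field _)

/-- `k_S`, function fields. -/
theorem uTop_KSF {k : Type} [Field k] (S : Finset (H738.Place k)) : UTop (H271.KSF S) :=
  uTop_pi fun _ => uTop_field _

/-- `E` of `H544.BC`. -/
theorem uTop_BC {k R A E ι : Type*} [Field k] [CommRing R] [TopologicalSpace R]
    [IsTopologicalRing R] [Algebra k R] [DivisionRing A] [StarRing A] [Algebra k A] [Ring E]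
    [StarRing E] [TopologicalSpace E] [IsTopologicalRing E] [Algebra R E] [Fintype ι]
    [DecidableEq ι] (B : H544.BC k R A E ι) (hR : UTop R) : UTop E :=
  uTop_of_coord B.φ hR

/-- `E` of `H74.BCR`. -/
theorem uTop_BCR {k R A E ι : Type*} [Field k] [CommRing R] [TopologicalSpace R]
    [IsTopologicalRing R] [Algebra k R] [Ring A] [StarRing A] [Algebra k A] [Ring E]
    [StarRing E] [TopologicalSpace E] [IsTopologicalRing E] [Algebra R E] [Fintype ι]
    [DecidableEq ι] (B : H74.BCR k R A E ι) (hR : UTop R) : UTop E :=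
  uTop_of_coord B.φ hR

end Vale.Agent.P011.H152
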